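import Vale.Agent.P150.Fast.Drift.Base

/-!
The probability of a bad node below a node: over a stretch of levels with one factor it is at most
the sum of the probabilities of the bad events at the levels of the stretch, each under its Gaussian
law, plus the probability of a bad node below the stretch, started from the Gaussian field at its
bottom (P150).
-/

open MeasureTheory Real Finset

namespace Vale.Agent.P150.Fast.Drift

variable {n : ℕ} {B : Fin n → Fin n → ℝ} {t : ℝ}

/-- The drift of a configuration. -/
def pull (B : Fin n → Fin n → ℝ) (x : Conf n) (j : Fin n) : ℝ := ∑ u, B u j * Ent.lin (B u) x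

/-- The field `i` levels below a field, given the configuration. -/
noncomputable def fieldAt (B : Fin n → Fin n → ℝ) (t : ℝ) (x : Conf n) (h : Vec n) (i : ℕ) (g : Vec n) :
    Vec n := fun j => h j + i * t ^ 2 * pull B x j + √(i : ℝ) * t * ∑ u, g u * B u j

theorem measurable_fieldAt (B : Fin n → Fin n → ℝ) (t : ℝ) (x : Conf n) (h : Vec n) (i : ℕ) :
    Measurable fun g => fieldAt B t x h i g := by unfold fieldAt; fun_prop

theorem fieldAt_zero (B : Fin n → Fin n → ℝ) (t : ℝ) (x : Conf n) (h g : Vec n) :
    fieldAt B t x h 0 g = h := by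
  funext j
  show h j + ((0 : ℕ) : ℝ) * t ^ 2 * pull B x j + √((0 : ℕ) : ℝ) * t * _ = h j
  simp

/-- One step followed by `i` steps with the same factor is `i + 1` steps. -/
theorem field_comb (ht : 0 ≤ t) (x : Conf n) (h : Vec n) (i : ℕ) {F : Vec n → ℝ} (hF : Measurable F)
    (hb : ∀ y, |F y| ≤ 1) :
    Integrable (fun g => ∫ g', F (fieldAt B t x (fun j => h j + t ^ 2 * pull B x j + t * ∑ u, g u * B u j)
        i g') ∂gp (Fin n)) (gp (Fin n)) ∧
    ∫ g, (∫ g', F (fieldAt B t x (fun j => h j + t ^ 2 * pull B x j + t * ∑ u, g u * B u j) i g')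
        ∂gp (Fin n)) ∂gp (Fin n)
      = ∫ g, F (fieldAt B t x h (i + 1) g) ∂gp (Fin n) := by
  set T : Vec n → ℝ := fun y => F fun j => h j + (i + 1) * t ^ 2 * pull B x j + ∑ u, y u * B u j with hT'
  have hT : Measurable T :=
    hF.comp (by fun_prop : Measurable fun y : Vec n => fun j =>
      h j + (i + 1) * t ^ 2 * pull B x j + ∑ u, y u * B u j)
  set S : Vec n × Vec n → Vec n := fun p u => t * p.1 u + √(i : ℝ) * t * p.2 u with hS
  have hSm : Measurable S := by fun_prop
  have e1 : ∀ g g', F (fieldAt B t x (fun j => h j + t ^ 2 * pull B x j + t * ∑ u, g u * B u j) i g')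
      = T (S (g, g')) := fun g g' => by
    rw [hT', hS]
    dsimp only
    congr 1
    funext j
    simp only [fieldAt, add_mul, sum_add_distrib, mul_sum, mul_assoc]
    ring
  have hi : Integrable (fun p => T (S p)) ((gp (Fin n)).prod (gp (Fin n))) :=
    Integrable.of_bound (hT.comp hSm).aestronglyMeasurable 1 (ae_of_all _ fun p => by
      rw [Real.norm_eq_abs]; exact hb _)
  simp only [e1]
  refine ⟨hi.integral_prod_left, ?_⟩
  rw [← integral_prod _ hi, ← integral_map hSm.aemeasurable hT.aestronglyMeasurable, hS, gp_add,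
    integral_map ((by fun_prop : Measurable fun (g : Vec n) (u : Fin n) =>
      √(t ^ 2 + (√(i : ℝ) * t) ^ 2) * g u).aemeasurable) hT.aestronglyMeasurable]
  refine integral_congr_ae (ae_of_all _ fun g => ?_)
  have e2 : √(t ^ 2 + (√(i : ℝ) * t) ^ 2) = √((i + 1 : ℕ) : ℝ) * t := by
    rw [mul_pow, sq_sqrt (Nat.cast_nonneg i), show t ^ 2 + (i : ℝ) * t ^ 2 = ((i + 1 : ℕ) : ℝ) * t ^ 2 by
      push_cast; ring, sqrt_mul (Nat.cast_nonneg _), sqrt_sq ht]
  rw [hT']
  dsimp only
  congr 1
  funext j
  simp only [fieldAt, e2, mul_sum]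
  push_cast
  congr 1
  exact sum_congr rfl fun u _ => by ring

theorem real_eq_integral_indicator {S : Set (Vec n)} (hS : MeasurableSet S) {f : Vec n → Vec n}
    (hf : Measurable f) :
    (gp (Fin n)).real {g | f g ∈ S} = ∫ g, S.indicator (fun _ => (1 : ℝ)) (f g) ∂gp (Fin n) := by
  show (gp (Fin n)).real (f ⁻¹' S) = _
  rw [← integral_indicator_one (hf hS)]
  rfl

/-- A stretch of levels with one factor. -/
theorem badP_le_sum {Bs : ℕ → Fin n → Fin n → ℝ} {G : ℕ → Set (Vec n)}
    (hG : ∀ k, MeasurableSet (G k)) (ht : 0 ≤ t) (x : Conf n) :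
    ∀ j r h, (∀ l, r ≤ l → l < r + j → Bs l = B) → badP Bs t G (r + j) h x
      ≤ ∑ i ∈ range j, (gp (Fin n)).real {g | fieldAt B t x h i g ∉ G (r + j - i)}
        + ∫ g, badP Bs t G r (fieldAt B t x h j g) x ∂gp (Fin n) := by
  classical
  intro j
  induction j with
  | zero => intro r h _; simp [fieldAt_zero]
  | succ j ih =>
    intro r h hBs
    have hbP : ∀ k (y : Vec n), |badP Bs t G k y x| ≤ 1 := fun k y => by
      obtain ⟨h0, h1⟩ := (badP_prop (Bs := Bs) (t := t) hG k x).2 y
      rw [abs_of_nonneg h0]; exact h1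
    have hrest : 0 ≤ ∫ g, badP Bs t G r (fieldAt B t x h (j + 1) g) x ∂gp (Fin n) :=
      integral_nonneg fun g => ((badP_prop hG r x).2 _).1
    by_cases hh : h ∈ G (r + j + 1)
    · rw [show r + (j + 1) = r + j + 1 from rfl, badP, if_pos hh,
        hBs (r + j) (Nat.le_add_right r j) (Nat.lt_succ_self _), cm_integral]
      set c : Vec n → Vec n := fun g j => h j + t ^ 2 * pull B x j + t * ∑ u, g u * B u j with hc
      have hs : ∀ g : Vec n, shiftH B t h (fun u => g u + dir B t x u) = c g := fun g => by
        funext j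
        simp only [hc, shiftH, pull, dir, mul_sum, add_assoc, ← sum_add_distrib]
        congr 1
        exact sum_congr rfl fun u _ => by ring
      simp only [hs]
      have hcm : Measurable c := by rw [hc]; fun_prop
      have hS : ∀ i, MeasurableSet (G (r + j - i))ᶜ := fun i => (hG _).compl
      have hterm : ∀ i, Integrable (fun g => (gp (Fin n)).real {g' | fieldAt B t x (c g) i g' ∉ G (r + j - i)})
            (gp (Fin n)) ∧ ∫ g, (gp (Fin n)).real {g' | fieldAt B t x (c g) i g' ∉ G (r + j - i)} ∂gp (Fin n)
            = (gp (Fin n)).real {g | fieldAt B t x h (i + 1) g ∉ G (r + j + 1 - (i + 1))} := by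
        intro i
        have h1 := field_comb (B := B) ht x h i (measurable_const.indicator (hS i))
          (F := (G (r + j - i))ᶜ.indicator fun _ => (1 : ℝ)) fun y => by
            by_cases hy : y ∈ (G (r + j - i))ᶜ <;> simp [Set.indicator, hy]
        simp only [← real_eq_integral_indicator (hS i) (measurable_fieldAt B t x _ _)] at h1
        rw [Nat.succ_sub_succ]
        exact h1
      obtain ⟨iI, eI⟩ := field_comb (B := B) ht x h j (F := fun y => badP Bs t G r y x)
        (badP_prop hG r x).1 (hbP r)
      refine (integral_mono ?_ ((integrable_finsetSum _ fun i _ => (hterm i).1).add iI)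
        fun g => ih r (c g) fun l h1 h2 => hBs l h1 (h2.trans (Nat.lt_succ_self _))).trans ?_
      · exact Integrable.of_bound ((badP_prop hG _ x).1.comp hcm).aestronglyMeasurable 1
          (ae_of_all _ fun g => by rw [Real.norm_eq_abs]; exact hbP _ _)
      · simp only [Pi.add_apply]
        rw [integral_add (integrable_finsetSum _ fun i _ => (hterm i).1) iI,
          integral_finsetSum _ fun i _ => (hterm i).1, sum_range_succ' _ j, eI]
        simp only [(hterm _).2]
        exact add_le_add (le_add_of_nonneg_right measureReal_nonneg) le_rfl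
    · rw [show r + (j + 1) = r + j + 1 from rfl, badP, if_neg hh]
      refine le_add_of_le_of_nonneg ?_ hrest
      rw [sum_range_succ' _ j]
      refine le_add_of_nonneg_of_le (sum_nonneg fun i _ => measureReal_nonneg) ?_
      have : {g : Vec n | fieldAt B t x h 0 g ∉ G (r + j + 1 - 0)} = Set.univ :=
        Set.eq_univ_of_forall fun g => by
          show fieldAt B t x h 0 g ∉ G (r + j + 1 - 0)
          rw [fieldAt_zero]; exact hh
      rw [this, probReal_univ]

end Vale.Agent.P150.Fast.Drift
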