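import Vale.Agent.P150.Fast.Goe
import Vale.Agent.P150.Fast.Drift.Law

/-!
Auxiliary facts for module M8 (P150): adding a constant to a density, and the form of the factor.
-/

open MeasureTheory Real Finset
open scoped Matrix

namespace Vale.Agent.P150.Fast

open Drift

variable {n : ℕ}

theorem phi_add_le {a c b : ℝ} (ha : 0 < a) (hc : 0 < c) (hb : 0 < b) :
    Ent.phi (a + b) (c + b) ≤ Ent.phi a c := by
  have h := Ent.phi_sum_le (univ : Finset Bool) univ_nonempty (fun _ => 1)
    (fun i => if i then a else b) (fun i => if i then c else b) (fun _ _ => one_pos)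
    (fun i _ => by cases i <;> simp [ha, hb]) (fun i _ => by cases i <;> simp [hc, hb])
    (F := (a + b) / 2) (M := (c + b) / 2) (by simp) (by simp)
  simp [Ent.phi] at h ⊢
  rw [log_div (by positivity) (by norm_num), log_div (by positivity) (by norm_num)] at h
  linarith

theorem entTot_add_le {W u : Conf n → ℝ} (hW : ∀ x, 0 < W x) (hu : ∀ x, 0 < u x) {b : ℝ} (hb : 0 < b) :
    Ent.entTot W (fun x => u x + b) ≤ Ent.entTot W u := by
  refine sum_le_sum fun i _ => ?_
  refine (Ent.entSite_le hW (fun x => add_pos (hu x) hb) i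
    (c := fun x => Ent.pairAvg W u i x + b) (fun x => add_pos (Ent.pairAvg_pos hW hu i x) hb)
    (fun x => by rw [Ent.pairAvg_flip])).trans (sum_le_sum fun x _ =>
      mul_le_mul_of_nonneg_left (phi_add_le (hu x) (Ent.pairAvg_pos hW hu i x) hb) (hW x).le)

theorem ent_le_add {W u : Conf n → ℝ} (hW : ∀ x, 0 < W x) (hW1 : ∑ x, W x = 1) (hu : ∀ x, 0 < u x)
    (hu1 : ∑ x, W x * u x = 1) {b : ℝ} (hb : 0 < b) (hb1 : b ≤ 1) :
    Ent.ent W u ≤ Ent.ent W (fun x => u x + b) + b * (2 - log b) := by
  have hF : Ent.avg W u = 1 := by rw [Ent.avg, hu1, Ent.mass, hW1, div_one]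
  have hF' : Ent.avg W (fun x => u x + b) = 1 + b := by
    simp only [Ent.avg, mul_add, sum_add_distrib, ← sum_mul, hu1, Ent.mass, hW1, one_mul, div_one]
  have hl : log (1 + b) ≤ b := by linarith [log_le_sub_one_of_pos (show 0 < 1 + b by linarith)]
  have hl0 : 0 ≤ log (1 + b) := log_nonneg (by linarith)
  have hpt : ∀ x, W x * Ent.phi (u x) 1 ≤ W x * Ent.phi (u x + b) (1 + b)
      + W x * (u x * log (1 + b) + b * log (1 + b) - b * log b) := by
    intro x
    rw [← mul_add]
    refine mul_le_mul_of_nonneg_left ?_ (hW x).le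
    have h1 := mul_le_mul_of_nonneg_left (log_le_log (hu x) (by linarith : u x ≤ u x + b)) (hu x).le
    have h2 := mul_le_mul_of_nonneg_left (log_le_log hb (by linarith [hu x] : b ≤ u x + b)) hb.le
    simp only [Ent.phi, log_one]
    linarith
  have hs := sum_le_sum (s := univ) fun x _ => hpt x
  rw [sum_add_distrib] at hs
  have e : ∑ x, W x * (u x * log (1 + b) + b * log (1 + b) - b * log b)
      = log (1 + b) + (b * log (1 + b) - b * log b) := by
    have e1 : ∀ x, W x * (u x * log (1 + b) + b * log (1 + b) - b * log b)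
        = log (1 + b) * (W x * u x) + (b * log (1 + b) - b * log b) * W x := fun x => by ring
    simp only [e1, sum_add_distrib, ← mul_sum, hu1, hW1, mul_one]
  rw [e] at hs
  simp only [Ent.ent, hF, hF']
  refine hs.trans (add_le_add le_rfl ?_)
  nlinarith [mul_le_mul_of_nonneg_left hl hb.le]

/-- The form recovered from the factor. -/
theorem pull_eq {β : ℝ} {d : Dis n} {B : Fin n → Fin n → ℝ}
    (hB : ∀ v : Vec n, ∑ u, bvec B v u ^ 2 = Ent.qform (aop n β d) v) (x : Conf n) (j : Fin n) :
    pull B x j = (aop n β d *ᵥ vec x) j := by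
  have hsymm : ∀ i k, aop n β d i k = aop n β d k i := fun i k => by
    simp only [aop, Matrix.add_apply, Matrix.smul_apply, Matrix.one_apply, kmat_symm β d i k, eq_comm]
  set e : Vec n := Pi.single j 1 with he
  have hb : ∀ w : Vec n, bvec B (fun i => w i + e i) = fun u => bvec B w u + B u j := fun w => by
    funext u
    simp [bvec, mul_add, sum_add_distrib, he, Pi.single_apply]
  have h1 := hB (fun i => vec x i + e i)
  have h2 := hB (vec x)
  have h3 := hB e
  have hbe : bvec B e = fun u => B u j := by funext u; simp [bvec, he, Pi.single_apply]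
  rw [hb] at h1
  rw [hbe] at h3
  have hl : ∑ u, (bvec B (vec x) u + B u j) ^ 2
      = ∑ u, bvec B (vec x) u ^ 2 + 2 * pull B x j + ∑ u, B u j ^ 2 := by
    rw [pull, mul_sum, ← sum_add_distrib, ← sum_add_distrib]
    exact sum_congr rfl fun u _ => by simp only [bvec, vec, Ent.lin]; ring
  have hr : Ent.qform (aop n β d) (fun i => vec x i + e i) = Ent.qform (aop n β d) (vec x)
      + 2 * (aop n β d *ᵥ vec x) j + Ent.qform (aop n β d) e := by
    simp only [Ent.qform, Matrix.mulVec, dotProduct, add_mul, mul_add, sum_add_distrib]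
    have a1 : ∑ i, ∑ k, vec x i * aop n β d i k * e k = ∑ k, aop n β d j k * vec x k := by
      simp only [he, Pi.single_apply, mul_ite, mul_one, mul_zero, sum_ite_eq', mem_univ, if_true]
      exact sum_congr rfl fun i _ => by rw [hsymm i j]; ring
    have a2 : ∑ i, ∑ k, e i * aop n β d i k * vec x k = ∑ k, aop n β d j k * vec x k := by
      simp [he, Pi.single_apply, ite_mul]
    rw [a1, a2]; ring
  rw [hl] at h1
  linarith

theorem bvec_idB (v : Vec n) : bvec (idB n) v = v := by
  funext u; simp [bvec, idB]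

theorem pull_idB (x : Conf n) (j : Fin n) : pull (idB n) x j = vec x j := by
  simp [pull, idB, Ent.lin, vec]

theorem quad_idB (x : Conf n) : Ent.quad (idB n) x = n := by
  have : ∀ u, spin (x u) ^ 2 = 1 := fun u => by rw [pow_two]; exact spin_sq _
  simp [Ent.quad, idB, Ent.lin, this]

/-- Below the root, phase I gives the side field. -/
theorem fieldAt_idB {t : ℝ} (ht : 0 ≤ t) (x : Conf n) (i : ℕ) (g : Vec n) :
    fieldAt (idB n) t x 0 i g = sideField ((i : ℝ) * t ^ 2) x g := by
  funext j
  simp [fieldAt, pull_idB, idB, sideField, sqrt_sq ht]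

end Vale.Agent.P150.Fast
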