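import Vale.Agent.P150.Fast.Drift.Transport

/-!
At a node with small future probability of bad nodes all linear functions are sub-Gaussian (P150).
-/

open MeasureTheory Real Finset

namespace Vale.Agent.P150.Fast.Drift

variable {n : ℕ} {Bs : ℕ → Fin n → Fin n → ℝ} {t L ρ P R : ℝ} {M : ℕ → Vec n → Vec n}
  {G : ℕ → Set (Vec n)} {K : ℕ}

/-- Entropy against the largest value. -/
theorem ent_le_log {W f : Conf n → ℝ} (hW : ∀ x, 0 < W x) (hf : ∀ x, 0 < f x) {b : ℝ}
    (hb : ∀ x, f x ≤ b) : Ent.ent W f ≤ (∑ x, W x * f x) * log (b / Ent.avg W f) := by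
  set F := Ent.avg W f with hF
  have hFp : 0 < F := Ent.avg_pos hW hf
  have hbp : 0 < b := (hf default).trans_le (hb default)
  have e : ∑ x, W x * (F - f x) = 0 := by
    simp only [mul_sub, sum_sub_distrib, ← sum_mul]
    rw [hF, Ent.sum_eq_avg hW f]; ring
  have : Ent.ent W f ≤ ∑ x, (W x * f x * log (b / F) + W x * (F - f x)) := by
    refine sum_le_sum fun x _ => ?_
    rw [← hF, Ent.phi, log_div hbp.ne' hFp.ne']
    have h := mul_le_mul_of_nonneg_left (log_le_log (hf x) (hb x)) (mul_pos (hW x) (hf x)).le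
    linarith
  rwa [sum_add_distrib, e, add_zero, ← sum_mul] at this

/-- Events of small probability carry little mass of a law of small entropy. -/
theorem badF_le_ent (hG : ∀ k, MeasurableSet (G k)) {f : Conf n → ℝ} (hf : ∀ x, 0 < f x) {k : ℕ}
    {h : Vec n} {Γ : ℝ} (hΓ : 0 < Γ)
    (hb : badF Bs t G (fun _ => 1) k h ≤ exp (-Γ) * Ent.mass (nodeW Bs t k h)) :
    Γ * badF Bs t G f k h ≤ Ent.ent (nodeW Bs t k h) f + ∑ x, nodeW Bs t k h x * f x := by
  set W := nodeW Bs t k h with hW'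
  have hW : ∀ x, 0 < W x := fun x => nodeW_pos _ _ _
  set F := Ent.avg W f with hF
  have hFp : 0 < F := Ent.avg_pos hW hf
  set φ := fun x => badP Bs t G k h x with hφ
  have hpt : ∀ x, W x * (f x * (Γ * φ x))
      ≤ W x * Ent.phi (f x) F + F * (exp Γ - 1) * (W x * φ x) := by
    intro x
    have h1 := Ent.phi_nonneg (hf x) (mul_pos hFp (exp_pos (Γ * φ x)))
    simp only [Ent.phi, log_mul hFp.ne' (exp_pos (Γ * φ x)).ne', log_exp] at h1 ⊢
    obtain ⟨h0, h2⟩ := (badP_prop (Bs := Bs) (t := t) hG k x).2 h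
    have h3 := convexOn_exp.2 (Set.mem_univ (0 : ℝ)) (Set.mem_univ Γ)
      (by linarith : 0 ≤ 1 - φ x) (by simpa [hφ] using h0) (by ring)
    simp only [smul_eq_mul, mul_zero, zero_add, exp_zero, mul_one] at h3
    rw [mul_comm (φ x) Γ] at h3
    have h4 := mul_le_mul_of_nonneg_left h3 hFp.le
    have h5 := mul_le_mul_of_nonneg_left (show f x * (Γ * φ x) ≤ (f x * log (f x) - f x * log F - f x + F)
      + F * (exp Γ - 1) * φ x by linarith) (hW x).le
    linarith
  have hs := sum_le_sum (s := univ) fun x _ => hpt x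
  rw [sum_add_distrib, ← mul_sum] at hs
  have e1 : ∑ x, W x * (f x * (Γ * φ x)) = Γ * badF Bs t G f k h := by
    rw [badF, mul_sum]; exact sum_congr rfl fun x _ => by rw [hφ, ← hW']; ring
  have e2 : ∑ x, W x * φ x = badF Bs t G (fun _ => 1) k h := by simp [badF, hφ, ← hW']
  have e3 : ∑ x, W x * Ent.phi (f x) F = Ent.ent W f := rfl
  rw [e1, e2, e3] at hs
  refine hs.trans (add_le_add le_rfl ?_)
  have he : 0 ≤ exp Γ - 1 := by linarith [one_le_exp hΓ.le]
  refine (mul_le_mul_of_nonneg_left hb (mul_nonneg hFp.le he)).trans ?_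
  rw [Ent.sum_eq_avg hW f, ← hF, Ent.mass]
  have : (exp Γ - 1) * exp (-Γ) ≤ 1 := by
    rw [sub_mul, ← exp_add, add_neg_cancel, exp_zero]; linarith [exp_pos (-Γ)]
  linarith [mul_le_mul_of_nonneg_left this (mul_pos hFp (sum_pos (fun x _ => hW x) univ_nonempty)).le]

/-- The radius in front of the square root of the logarithm. -/
noncomputable def slope (L γ : ℝ) : ℝ := exp (2 * L) * (4 + 4 / γ) + 2

/-- The additive radius. -/
noncomputable def offset (L γ ρ' : ℝ) : ℝ := exp (2 * L) * (4 * ρ' + 8 / γ + 1) + 1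

/-- The sub-Gaussian constant of a node with small future probability of bad nodes. -/
noncomputable def nodeConst (L γ ρ' : ℝ) : ℝ :=
  2 * (4 * slope L γ ^ 2) * (sqConst (2 * (exp (offset L γ ρ' ^ 2 / slope L γ ^ 2) + 2)) + 1)

theorem node_mean (hM : Mesh Bs t L ρ P R M G K) (hn : 1 ≤ n) {k : ℕ} (hk : k ≤ K)
    {T : ℝ} (hkt : (k : ℝ) * t ^ 2 ≤ T) {ρ' : ℝ} (hρ : k * stepErr t ρ P R ≤ ρ') {Γ γ : ℝ} (hγ : 0 < γ)
    (hΓ : γ * n ≤ Γ) {h : Vec n}
    (hbad : badF Bs t G (fun _ => 1) k h ≤ exp (-Γ) * Ent.mass (nodeW Bs t k h)) :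
    (∀ f : Conf n → ℝ, (∀ x, 0 < f x) → ∀ l : ℝ, 0 < l → dist1 Bs t M f k h
      ≤ exp (2 * (L * T)) * (l * Ent.ent (nodeW Bs t k h) f + (∑ x, nodeW Bs t k h x * f x) * (1 / (2 * l) + ρ')
        + 2 * √n / Γ * (Ent.ent (nodeW Bs t k h) f + ∑ x, nodeW Bs t k h x * f x))) ∧
    dist1 Bs t M (fun _ => 1) k h ≤ Ent.mass (nodeW Bs t k h) * (exp (2 * (L * T)) * (1 / 2 + ρ' + 2 / γ)) ∧
    2 * √(n : ℝ) / Γ ≤ 2 / γ := by
  have hn1 : (1 : ℝ) ≤ n := by exact_mod_cast hn
  have hn0 : (0 : ℝ) < √n := sqrt_pos.2 (by linarith)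
  have hΓ0 : 0 < Γ := lt_of_lt_of_le (mul_pos hγ (by linarith)) hΓ
  have hLn := hM.Lnn
  have hT : 0 ≤ L * T := mul_nonneg hLn (le_trans (by positivity) hkt)
  set W := nodeW Bs t k h with hW'
  have hW : ∀ x, 0 < W x := fun x => nodeW_pos _ _ _
  have hm := Ent.mass_pos hW
  set m := Ent.mass W with hm'
  have hρ0 : 0 ≤ ρ' := le_trans (by
    have := hM.tpos; have := hM.Pnn; have := hM.ρnn; rw [stepErr]; positivity) hρ
  set E := exp (2 * (L * T)) with hE
  have hE1 : 1 ≤ E := one_le_exp (by linarith [hT])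
  -- the transport bound for a positive function
  have hD : ∀ f : Conf n → ℝ, (∀ x, 0 < f x) → ∀ l : ℝ, 0 < l → dist1 Bs t M f k h
      ≤ E * (l * Ent.ent W f + (∑ x, W x * f x) * (1 / (2 * l) + ρ')
        + 2 * √n / Γ * (Ent.ent W f + ∑ x, W x * f x)) := by
    intro f hf l hl
    refine (transport hM hf hl k hk h).trans ?_
    have hent := Ent.ent_nonneg hW hf
    have hFm : 0 ≤ ∑ x, W x * f x := sum_nonneg fun x _ => (mul_pos (hW x) (hf x)).le
    have hb0 := badF_nonneg (Bs := Bs) (t := t) hM.measG (fun x => (hf x).le) k h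
    refine mul_le_mul (exp_le_exp.2 ?_) (add_le_add (add_le_add le_rfl ?_) ?_) (by
      have := hM.tpos; have := hM.Pnn; have := hM.ρnn
      have : 0 ≤ (k : ℝ) * stepErr t ρ P R := by rw [stepErr]; positivity
      rw [← hW']
      have : 0 ≤ (∑ x, W x * f x) * (1 / (2 * l) + ↑k * stepErr t ρ P R) := by positivity
      positivity) (exp_pos _).le
    · linarith [mul_le_mul_of_nonneg_left hkt hLn]
    · exact mul_le_mul_of_nonneg_left (add_le_add le_rfl hρ) hFm
    · have h1 := badF_le_ent hM.measG hf hΓ0 hbad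
      rw [div_mul_eq_mul_div, le_div_iff₀ hΓ0]
      have h2 := mul_le_mul_of_nonneg_left h1 (show 0 ≤ 2 * √(n : ℝ) by positivity)
      rw [← hW'] at h2
      linarith
  have hgam : 2 * √(n : ℝ) / Γ ≤ 2 / γ := by
    rw [div_le_div_iff₀ hΓ0 hγ]
    have h1 : √(n : ℝ) ≤ n := by
      nlinarith [mul_self_sqrt (show (0 : ℝ) ≤ n by linarith), one_le_sqrt.2 hn1]
    linarith [mul_le_mul_of_nonneg_left h1 hγ.le]
  -- the distance of the mean of the node to its centre
  have hD1 : dist1 Bs t M (fun _ => 1) k h ≤ m * (E * (1 / 2 + ρ' + 2 / γ)) := by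
    refine (hD (fun _ => 1) (fun _ => one_pos) 1 one_pos).trans ?_
    have he : Ent.ent W (fun _ => 1) = 0 := by
      have : Ent.avg W (fun _ => 1) = 1 := by
        simp only [Ent.avg, mul_one]; exact div_self (Ent.mass_pos hW).ne'
      simp [Ent.ent, this, Ent.phi]
    simp only [he, mul_one, mul_zero, zero_add, hm', Ent.mass]
    rw [mul_left_comm]
    refine mul_le_mul_of_nonneg_left ?_ (zero_le_one.trans hE1)
    have := mul_le_mul_of_nonneg_right hgam (sum_nonneg fun x (_ : x ∈ univ) => (hW x).le)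
    linarith
  exact ⟨hD, hD1, hgam⟩

/-- The radius from the transport bound, as real arithmetic. -/
theorem radius_bound {p δ r m Lg E γ ρ' Γ D D1 S e : ℝ} {n : ℕ} (hp0 : 0 < p) (hδ0 : 0 < δ)
    (hδ1 : δ ≤ p / 4) (hm : 0 < m) (hLg0 : 0 < Lg) (hbig : Lg ≤ n) (hE1 : 1 ≤ E) (hγ : 0 < γ)
    (hρ0 : 0 ≤ ρ') (hΓ0 : 0 < Γ) (hΓ : γ * n ≤ Γ) (hgam : 2 * √(n : ℝ) / Γ ≤ 2 / γ)
    (hent : e ≤ (p + δ) * m * Lg) (hlow : p * (r - 1 / 2) * m ≤ S) (hup : S ≤ D + (p + δ) * D1)
    (hD1 : D1 ≤ m * (E * (1 / 2 + ρ' + 2 / γ)))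
    (hDf : D ≤ E * (1 / √Lg * e + (p + δ) * m * (1 / (2 * (1 / √Lg)) + ρ')
      + 2 * √(n : ℝ) / Γ * (e + (p + δ) * m))) :
    r ≤ (E * (4 + 4 / γ) + 2) * √Lg + (E * (4 * ρ' + 8 / γ + 1) + 1) := by
  have hsl : 0 < √Lg := sqrt_pos.2 hLg0
  have hb1 : 1 / √Lg * e ≤ (p + δ) * m * √Lg := by
    rw [div_mul_eq_mul_div, one_mul, div_le_iff₀ hsl, mul_assoc ((p + δ) * m), mul_self_sqrt hLg0.le]
    exact hent
  have hb2 : 2 * √n / Γ * e ≤ (p + δ) * m * (2 / γ * √Lg) := by
    refine (mul_le_mul_of_nonneg_left hent (by positivity)).trans ?_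
    rw [mul_left_comm]
    refine mul_le_mul_of_nonneg_left ?_ (by positivity)
    rw [div_mul_eq_mul_div, div_mul_eq_mul_div, div_le_div_iff₀ hΓ0 hγ]
    have h1 : Lg ≤ √n * √Lg :=
      (mul_self_sqrt hLg0.le).symm.trans_le (mul_le_mul_of_nonneg_right (sqrt_le_sqrt hbig) hsl.le)
    have h2 : √(n : ℝ) * Lg * γ ≤ √Lg * Γ := by
      calc √(n : ℝ) * Lg * γ ≤ √(n : ℝ) * (√n * √Lg) * γ := by gcongr
        _ = √Lg * (γ * n) := by rw [← mul_assoc √(n : ℝ), mul_self_sqrt (by linarith)]; ring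
        _ ≤ √Lg * Γ := mul_le_mul_of_nonneg_left hΓ hsl.le
    linarith
  have hb3 := mul_le_mul_of_nonneg_left hgam (show 0 ≤ (p + δ) * m by positivity)
  have hb4 := mul_le_mul_of_nonneg_left hD1 (show 0 ≤ p + δ by positivity)
  have htot : p * (r - 1 / 2) * m ≤ (p + δ) * m
      * (E * (√Lg + √Lg / 2 + ρ' + 2 / γ * √Lg + 2 / γ) + E * (1 / 2 + ρ' + 2 / γ)) := by
    have e1 : 1 / (2 * (1 / √Lg)) = √Lg / 2 := by field_simp
    rw [e1] at hDf
    have h1 := mul_le_mul_of_nonneg_left (add_le_add (add_le_add hb1 hb2) hb3) (zero_le_one.trans hE1)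
    linarith
  set Q := E * (√Lg + √Lg / 2 + ρ' + 2 / γ * √Lg + 2 / γ) + E * (1 / 2 + ρ' + 2 / γ) with hQ
  have hQ0 : 0 ≤ Q := by positivity
  have h5 : p * (r - 1 / 2) ≤ p * (2 * Q) := by
    refine le_of_mul_le_mul_right (htot.trans ?_) hm
    linarith [mul_le_mul_of_nonneg_right (show p + δ ≤ 2 * p by linarith) (mul_nonneg hm.le hQ0)]
  have h6 := le_of_mul_le_mul_left h5 hp0
  have h7 : 2 * Q ≤ E * (4 + 4 / γ) * √Lg + E * (4 * ρ' + 8 / γ + 1) := by
    have : 0 ≤ E * √Lg := by positivity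
    rw [hQ, show (4 : ℝ) / γ = 2 * (2 / γ) by ring, show (8 : ℝ) / γ = 4 * (2 / γ) by ring]
    linarith
  linarith [mul_pos hsl (zero_lt_two (α := ℝ))]

theorem node_subG (hM : Mesh Bs t L ρ P R M G K) (hn : 1 ≤ n) {k : ℕ} (hk : k ≤ K)
    {T : ℝ} (hkt : (k : ℝ) * t ^ 2 ≤ T) {ρ' : ℝ} (hρ : k * stepErr t ρ P R ≤ ρ') {Γ γ : ℝ} (hγ : 0 < γ)
    (hΓ : γ * n ≤ Γ) {h : Vec n}
    (hbad : badF Bs t G (fun _ => 1) k h ≤ exp (-Γ) * Ent.mass (nodeW Bs t k h)) :
    SubG (nodeW Bs t k h) (nodeConst (L * T) γ ρ') := by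
  have hn1 : (1 : ℝ) ≤ n := by exact_mod_cast hn
  have hn0 : (0 : ℝ) < √n := sqrt_pos.2 (by linarith)
  have hΓ0 : 0 < Γ := lt_of_lt_of_le (mul_pos hγ (by linarith)) hΓ
  have hLn := hM.Lnn
  have hT : 0 ≤ L * T := mul_nonneg hLn (le_trans (by positivity) hkt)
  set W := nodeW Bs t k h with hW'
  have hW : ∀ x, 0 < W x := fun x => nodeW_pos _ _ _
  have hm := Ent.mass_pos hW
  set m := Ent.mass W with hm'
  have hρ0 : 0 ≤ ρ' := le_trans (by
    have := hM.tpos; have := hM.Pnn; have := hM.ρnn; rw [stepErr]; positivity) hρ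
  set E := exp (2 * (L * T)) with hE
  have hE1 : 1 ≤ E := one_le_exp (by linarith [hT])
  set A := slope (L * T) γ with hA
  set O := offset (L * T) γ ρ' with hO
  have hA2 : 2 ≤ A := by
    rw [hA, slope, ← hE]
    have : 0 ≤ E * (4 + 4 / γ) := by positivity
    linarith
  have hO1 : 1 ≤ O := by
    rw [hO, offset, ← hE]
    have : 0 ≤ E * (4 * ρ' + 8 / γ + 1) := by positivity
    linarith
  obtain ⟨hD, hD1, hgam⟩ := node_mean hM hn hk hkt hρ hγ hΓ hbad
  rw [← hW'] at hD hD1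
  rw [← hm'] at hD1
  refine subG_of_tail hW (by positivity) (by positivity) fun u hu r hr => ?_
  -- one side
  have side : ∀ v : Vec n, ∑ j, v j ^ 2 = 1 →
      ∑ x ∈ univ.filter (fun x => r ≤ Ent.lin v x - Ent.avg W (Ent.lin v)), W x
        ≤ (exp (O ^ 2 / A ^ 2) + 2) * exp (-(r ^ 2 / (4 * A ^ 2))) * m := by
    intro v hv
    set X := fun x => Ent.lin v x - Ent.avg W (Ent.lin v) with hX
    set S := univ.filter (fun x => r ≤ X x) with hS
    set p := (∑ x ∈ S, W x) / m with hp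
    have hpm : ∑ x ∈ S, W x = p * m := by rw [hp, div_mul_cancel₀ _ hm.ne']
    have hp1 : p ≤ 1 := (div_le_one hm).2 (sum_le_univ_sum_of_nonneg fun x => (hW x).le)
    rw [hpm]
    refine mul_le_mul_of_nonneg_right ?_ hm.le
    rcases le_or_gt r (2 * O) with hr2 | hr2
    · refine hp1.trans ?_
      rw [add_mul, ← exp_add]
      have h1 : 1 ≤ exp (O ^ 2 / A ^ 2 + -(r ^ 2 / (4 * A ^ 2))) := by
        refine one_le_exp ?_
        rw [show r ^ 2 / (4 * A ^ 2) = (r / 2) ^ 2 / A ^ 2 by ring, ← sub_eq_add_neg, ← sub_div]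
        refine div_nonneg (sub_nonneg.2 (pow_le_pow_left₀ (by linarith) (by linarith) 2)) (sq_nonneg _)
      linarith [exp_pos (-(r ^ 2 / (4 * A ^ 2)))]
    rcases S.eq_empty_or_nonempty with hemp | ⟨x0, hx0⟩
    · rw [hp, hemp]; simp; positivity
    have hp0 : 0 < p := div_pos (sum_pos (fun x _ => hW x) ⟨x0, hx0⟩) hm
    set Lg := log (2 / p) with hLg
    have hLg0 : 0 < Lg := log_pos ((one_lt_div hp0).2 (by linarith))
    have hXb : ∀ x, |X x| ≤ 2 * √n := by
      have hl : ∀ x, |Ent.lin v x| ≤ √n := fun x => by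
        rw [← sqrt_sq_eq_abs]
        refine sqrt_le_sqrt ((sum_mul_sq_le_sq_mul_sq _ _ _).trans (le_of_eq ?_))
        rw [hv, one_mul]; simp [pow_two, spin_sq]
      intro x
      have h2 := Ent.avg_mem hW (a := -√n) (b := √n) (fun z => (abs_le.1 (hl z)).1)
        (fun z => (abs_le.1 (hl z)).2)
      rw [hX, abs_le]
      constructor <;> linarith [(abs_le.1 (hl x)).1, (abs_le.1 (hl x)).2, h2.1, h2.2]
    suffices hkey : r ≤ A * √Lg + O by
      have h1 : r / (2 * A) ≤ √Lg := by rw [div_le_iff₀ (by linarith)]; linarith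
      have h2 : r ^ 2 / (4 * A ^ 2) ≤ Lg := by
        rw [show r ^ 2 / (4 * A ^ 2) = (r / (2 * A)) ^ 2 by ring, ← sq_sqrt hLg0.le]
        exact pow_le_pow_left₀ (by positivity) h1 2
      have h3 : p ≤ 2 * exp (-(r ^ 2 / (4 * A ^ 2))) := by
        have h4 := exp_le_exp.2 h2
        rw [hLg, exp_log (by positivity), le_div_iff₀ hp0] at h4
        rw [exp_neg, mul_comm (2 : ℝ), ← div_eq_inv_mul, le_div_iff₀ (exp_pos _)]
        linarith
      refine h3.trans ?_
      rw [add_mul]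
      linarith [mul_pos (exp_pos (O ^ 2 / A ^ 2)) (exp_pos (-(r ^ 2 / (4 * A ^ 2))))]
    rcases lt_or_ge (n : ℝ) Lg with hbig | hbig
    · refine ((mem_filter.1 hx0).2.trans ((le_abs_self _).trans (hXb x0))).trans ?_
      have := sqrt_le_sqrt hbig.le
      nlinarith [sqrt_nonneg Lg]
    set δ := p / (4 * √n) with hδ
    have hδ0 : 0 < δ := by positivity
    have hδ1 : δ ≤ p / 4 := by
      rw [hδ]
      exact div_le_div_of_nonneg_left hp0.le (by norm_num)
        (le_mul_of_one_le_right (by norm_num) (one_le_sqrt.2 hn1))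
    set f := fun x => (if x ∈ S then (1 : ℝ) else 0) + δ with hf'
    have hf : ∀ x, 0 < f x := fun x => by rw [hf']; dsimp only; split <;> linarith
    have hFm : ∑ x, W x * f x = (p + δ) * m := by
      simp only [hf', mul_add, sum_add_distrib, mul_ite, mul_one, mul_zero, sum_ite_mem, univ_inter,
        ← sum_mul]
      rw [hpm, add_mul, hm', Ent.mass]; ring
    have hent : Ent.ent W f ≤ (p + δ) * m * Lg := by
      refine (ent_le_log hW hf (b := 1 + δ) fun x => by rw [hf']; dsimp only; split <;> linarith).trans ?_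
      rw [hFm]
      refine mul_le_mul_of_nonneg_left ?_ (by positivity)
      have : Ent.avg W f = p + δ := by rw [Ent.avg, hFm, ← hm', mul_div_cancel_right₀ _ hm.ne']
      rw [this, hLg]
      refine log_le_log (by positivity) ?_
      exact div_le_div₀ (by norm_num) (by linarith) hp0 (by linarith)
    have hlow : p * (r - 1 / 2) * m ≤ ∑ x, W x * f x * X x := by
      simp only [hf', mul_add, add_mul, sum_add_distrib, mul_ite, ite_mul, mul_one, mul_zero, zero_mul,
        sum_ite_mem, univ_inter]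
      have h1 : p * m * r ≤ ∑ x ∈ S, W x * X x := by
        rw [← hpm, sum_mul]
        exact sum_le_sum fun x hx => mul_le_mul_of_nonneg_left (mem_filter.1 hx).2 (hW x).le
      have h2 : -(δ * (2 * √n) * m) ≤ ∑ x, W x * δ * X x := by
        rw [hm', Ent.mass, mul_sum, ← sum_neg_distrib]
        refine sum_le_sum fun x _ => ?_
        have := mul_le_mul_of_nonneg_left (abs_le.1 (hXb x)).1 (mul_pos (hW x) hδ0).le
        linarith
      have h3 : δ * (2 * √n) = p / 2 := by rw [hδ]; field_simp; ring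
      rw [h3] at h2
      linarith
    have hup : ∑ x, W x * f x * X x
        ≤ dist1 Bs t M f k h + (p + δ) * dist1 Bs t M (fun _ => 1) k h := by
      have e : ∀ g : Conf n → ℝ, ∑ x, W x * g x * (Ent.lin v x - ∑ j, v j * M k h j)
          = ∑ j, (∑ x, W x * g x * (spin (x j) - M k h j)) * v j := fun g => by
        simp only [Ent.lin, ← sum_sub_distrib, mul_sum, sum_mul]
        rw [sum_comm]
        exact sum_congr rfl fun j _ => sum_congr rfl fun x _ => by ring
      have hav : ∑ x, W x * (fun _ => (1 : ℝ)) x * (Ent.lin v x - ∑ j, v j * M k h j)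
          = m * (Ent.avg W (Ent.lin v) - ∑ j, v j * M k h j) := by
        simp only [mul_one, mul_sub, sum_sub_distrib, ← sum_mul]
        rw [Ent.sum_eq_avg hW, hm', Ent.mass]; ring
      have hsplit : ∑ x, W x * f x * X x
          = ∑ x, W x * f x * (Ent.lin v x - ∑ j, v j * M k h j)
            - (p + δ) * (m * (Ent.avg W (Ent.lin v) - ∑ j, v j * M k h j)) := by
        rw [← mul_assoc, ← hFm, sum_mul, ← sum_sub_distrib]
        exact sum_congr rfl fun x _ => by simp only [hX]; ring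
      have hv1 : eno v = 1 := by rw [eno, hv, sqrt_one]
      rw [hsplit, ← hav, e, e]
      have h1 := inner_le_eno (fun j => ∑ x, W x * f x * (spin (x j) - M k h j)) v
      have h2 := inner_le_eno (fun j => -(∑ x, W x * (fun _ => (1 : ℝ)) x * (spin (x j) - M k h j))) v
      rw [hv1, mul_one] at h1 h2
      have h3 : eno (fun j => -(∑ x, W x * (fun _ => (1 : ℝ)) x * (spin (x j) - M k h j)))
          = dist1 Bs t M (fun _ => 1) k h := by simp [eno, dist1, hW']
      rw [h3] at h2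
      simp only [neg_mul, sum_neg_distrib] at h2
      have h4 : eno (fun j => ∑ x, W x * f x * (spin (x j) - M k h j)) = dist1 Bs t M f k h := rfl
      have := mul_le_mul_of_nonneg_left h2 (show 0 ≤ p + δ by positivity)
      linarith
    have hDf := hD f hf (1 / √Lg) (div_pos one_pos (sqrt_pos.2 hLg0))
    rw [hFm] at hDf
    rw [hA, hO, slope, offset]
    exact radius_bound hp0 hδ0 hδ1 hm hLg0 hbig hE1 hγ hρ0 hΓ0 hΓ hgam hent hlow hup hD1 hDf
  have hneg : Ent.avg W (Ent.lin fun j => -u j) = -Ent.avg W (Ent.lin u) := by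
    simp [Ent.avg, Ent.lin, mul_neg, neg_mul, sum_neg_distrib, neg_div]
  refine (sum_le_sum_of_subset_of_nonneg (t := univ.filter (fun x => r ≤ Ent.lin u x - Ent.avg W (Ent.lin u))
      ∪ univ.filter (fun x => r ≤ Ent.lin (fun j => -u j) x - Ent.avg W (Ent.lin fun j => -u j)))
    (fun x hx => ?_) fun x _ _ => (hW x).le).trans ?_
  · simp only [mem_union, mem_filter, mem_univ, true_and, hneg] at hx ⊢
    have : Ent.lin (fun j => -u j) x = -Ent.lin u x := by simp [Ent.lin]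
    rcases le_abs.1 hx with h | h
    · exact Or.inl h
    · right; rw [this]; linarith
  refine ((le_add_of_nonneg_right (sum_nonneg fun x _ => (hW x).le)).trans (sum_union_inter).le).trans ?_
  refine (add_le_add (side u hu) (side _ (by simpa using hu))).trans (le_of_eq ?_)
  rw [hA, hO]; ring

end Vale.Agent.P150.Fast.Drift
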