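import Vale.Agent.P150.Fast.Drift.Base

/-!
Defective tensorisation of entropy along the Gaussian localisation (P150): sub-Gaussian nodes pay
a factor, the others an additive term controlled by the probability of bad nodes.
-/

open MeasureTheory Real Finset

namespace Vale.Agent.P150.Fast.Drift

variable {n : ℕ} {Bs : ℕ → Fin n → Fin n → ℝ} {t : ℝ}

/-- The Gaussian mean of three exponential weights. -/
theorem integral_three (p q a : Fin n → ℝ) :
    Integrable (fun g => tiltG p g * tiltG q g * exp (-Vale.Agent.P150.lin a g)) (gp (Fin n)) ∧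
    ∫ g, tiltG p g * tiltG q g * exp (-Vale.Agent.P150.lin a g) ∂gp (Fin n)
      = exp (∑ u, p u * q u - (∑ u, a u * p u + ∑ u, a u * q u) + (∑ u, a u ^ 2) / 2) := by
  have e : ∀ g, tiltG p g * tiltG q g * exp (-Vale.Agent.P150.lin a g)
      = exp (∑ u, p u * q u - (∑ u, a u * p u + ∑ u, a u * q u) + (∑ u, a u ^ 2) / 2)
        * tiltG (fun u => p u + q u + -a u) g := fun g => by
    have h1 : exp (-Vale.Agent.P150.lin a g) = exp ((∑ u, a u ^ 2) / 2) * tiltG (fun u => -a u) g := by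
      simp only [tiltG, ← exp_add, Vale.Agent.P150.lin, mul_neg, sum_neg_distrib, neg_sq]
      congr 1; ring
    rw [h1, show tiltG p g * tiltG q g * (exp ((∑ u, a u ^ 2) / 2) * tiltG (fun u => -a u) g)
      = exp ((∑ u, a u ^ 2) / 2) * (tiltG p g * tiltG q g * tiltG (fun u => -a u) g) by ring,
      tiltG_mul, mul_assoc (exp (∑ u, p u * q u)), tiltG_mul, ← mul_assoc, ← mul_assoc, ← exp_add,
      ← exp_add]
    congr 2
    simp only [add_mul, mul_neg, sum_add_distrib, sum_neg_distrib, mul_comm (p _) (a _),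
      mul_comm (q _) (a _)]
    ring
  simp only [e]
  exact ⟨(integrable_tiltG _).const_mul _, by rw [integral_const_mul, integral_tiltG, mul_one]⟩

/-- Exponentials of the two-point coupling against their linearisation, summed against a centred
weight. -/
theorem sum_exp_couple_le {ι : Type*} [Fintype ι] (w : ι → ℝ) (d : ι → Fin n → ℝ) (a : Fin n → ℝ)
    (hw : ∑ x, w x = 0) {s : ℝ} (hs : 4 * s ≤ 1) (hs0 : 0 ≤ s) (hd : ∀ x, ∑ u, d x u ^ 2 ≤ s)
    (ha : ∑ u, a u ^ 2 ≤ s) :
    ∑ x, ∑ y, w x * w y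
      * exp (∑ u, d x u * d y u - (∑ u, a u * d x u + ∑ u, a u * d y u) + (∑ u, a u ^ 2) / 2)
      ≤ ∑ u, (∑ x, w x * d x u) ^ 2 + 16 * s ^ 2 * (∑ x, |w x|) ^ 2 := by
  set A := (∑ u, a u ^ 2) / 2 with hA
  set al := fun x => ∑ u, a u * d x u with hal
  set z := fun x y => ∑ u, d x u * d y u - (al x + al y) + A with hz
  have hb : ∀ p q : Fin n → ℝ, ∑ u, p u ^ 2 ≤ s → ∑ u, q u ^ 2 ≤ s → |∑ u, p u * q u| ≤ s := by
    intro p q hp hq
    refine abs_le_of_sq_le_sq ((sum_mul_sq_le_sq_mul_sq _ _ _).trans ?_) hs0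
    rw [pow_two s]
    exact mul_le_mul hp hq (sum_nonneg fun u _ => sq_nonneg _) hs0
  have hzb : ∀ x y, |z x y| ≤ 4 * s := by
    intro x y
    have h1 := abs_le.1 (hb _ _ (hd x) (hd y))
    have h2 := abs_le.1 (hb a _ ha (hd x))
    have h3 := abs_le.1 (hb a _ ha (hd y))
    have h4 : 0 ≤ ∑ u, a u ^ 2 := sum_nonneg fun u _ => sq_nonneg _
    rw [abs_le]
    simp only [hz, hal, hA]
    constructor <;> linarith
  have hlin : ∑ x, ∑ y, w x * w y * (1 + z x y) = ∑ u, (∑ x, w x * d x u) ^ 2 := by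
    have e : ∀ x y, w x * w y * (1 + z x y) = ∑ u, (w x * d x u) * (w y * d y u)
        + ((1 + A - al x) * w x * w y - w x * (al y * w y)) := fun x y => by
      have : ∑ u, (w x * d x u) * (w y * d y u) = w x * w y * ∑ u, d x u * d y u := by
        rw [mul_sum]; exact sum_congr rfl fun u _ => by ring
      rw [this]; simp only [hz]; ring
    simp only [e, sum_add_distrib, sum_sub_distrib, ← mul_sum, ← sum_mul, hw, mul_zero, sum_const_zero,
      zero_mul, sub_zero, add_zero]
    rw [sum_comm_cycle]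
    refine sum_congr rfl fun u _ => ?_
    rw [pow_two, sum_mul_sum]
  rw [← hlin]
  refine le_trans (sum_le_sum fun x _ => sum_le_sum fun y _ =>
    (?_ : w x * w y * exp (z x y) ≤ w x * w y * (1 + z x y) + 16 * s ^ 2 * (|w x| * |w y|))) ?_
  · have h1 := abs_exp_rem ((hzb x y).trans hs)
    have h2 : z x y ^ 2 ≤ 16 * s ^ 2 := by
      rw [← sq_abs]; linarith [pow_le_pow_left₀ (abs_nonneg _) (hzb x y) 2]
    have h3 : w x * w y * (exp (z x y) - 1 - z x y) ≤ |w x| * |w y| * (16 * s ^ 2) := by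
      refine (le_abs_self _).trans ?_
      rw [abs_mul, abs_mul]
      exact mul_le_mul_of_nonneg_left (h1.trans h2) (by positivity)
    linarith
  · simp only [sum_add_distrib, ← mul_sum]
    rw [pow_two (∑ x, |w x|), sum_mul]

/-- The square of the mean is at most the mean of the square. -/
theorem avg_sq_le {W : Conf n → ℝ} (hW : ∀ x, 0 < W x) (d : Conf n → ℝ) :
    Ent.avg W d ^ 2 ≤ Ent.avg W (fun x => d x ^ 2) := by
  rw [Ent.avg, Ent.avg, div_pow, div_le_div_iff₀ (pow_pos (Ent.mass_pos hW) 2) (Ent.mass_pos hW)]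
  have := sum_mul_sq_le_sq_mul_sq univ (fun x => √(W x)) (fun x => √(W x) * d x)
  simp only [← mul_assoc, mul_pow, mul_self_sqrt (hW _).le, sq_sqrt (hW _).le] at this
  have hm := Ent.mass_pos hW
  rw [Ent.mass] at hm ⊢
  linarith [mul_le_mul_of_nonneg_right this hm.le]

/-- One step: the entropy of a node against those of its children. -/
theorem tensor_step {f : Conf n → ℝ} {lo hi R : ℝ} (hlo : 0 < lo) (hflo : ∀ x, lo ≤ f x)
    (hfhi : ∀ x, f x ≤ hi) (hR : ∀ k x, Ent.quad (Bs k) x ≤ R) (hs : 4 * (t ^ 2 * R) ≤ 1) (k : ℕ) (h : Vec n) :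
    Ent.ent (nodeW Bs t (k + 1) h) f ≤ ∫ g, Ent.ent (nodeW Bs t k (shiftH (Bs k) t h g)) f ∂gp (Fin n)
      + 2 * (t ^ 2 * (Ent.mass (nodeW Bs t (k + 1) h) / Ent.avg (nodeW Bs t (k + 1) h) f)
          * ∑ u, bvec (Bs k) (Ent.covVec (nodeW Bs t (k + 1) h) f) u ^ 2
        + 16 * (t ^ 2 * R) ^ 2 * hi ^ 2 / lo * Ent.mass (nodeW Bs t (k + 1) h)) := by
  set W1 := nodeW Bs t (k + 1) h with hW1
  have hW : ∀ x, 0 < W1 x := fun x => nodeW_pos _ _ _
  have hf : ∀ x, 0 < f x := fun x => hlo.trans_le (hflo x)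
  set F := Ent.avg W1 f with hF
  have hFb := Ent.avg_mem hW hflo hfhi
  have hFp : 0 < F := hlo.trans_le hFb.1
  set m := Ent.mass W1 with hm'
  have hm : 0 < m := Ent.mass_pos hW
  set d := fun x => dir (Bs k) t x with hd
  set s := t ^ 2 * R with hs'
  have hsd : ∀ x, ∑ u, d x u ^ 2 ≤ s := fun x => by
    rw [hd, sum_dir_sq]; exact mul_le_mul_of_nonneg_left (hR k x) (sq_nonneg t)
  have hs0 : 0 ≤ s := (sum_nonneg fun u _ => sq_nonneg _).trans (hsd default)
  set W0 := fun x => W1 x * exp (-((∑ u, d x u ^ 2) / 2)) with hW0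
  have hW0p : ∀ x, 0 < W0 x := fun x => mul_pos (hW x) (exp_pos _)
  set a : Fin n → ℝ := fun u => Ent.avg W0 (fun x => d x u) with ha'
  have ha : ∑ u, a u ^ 2 ≤ s := by
    refine (sum_le_sum fun u _ => avg_sq_le hW0p _).trans ?_
    simp only [Ent.avg, ← sum_div]
    rw [div_le_iff₀ (Ent.mass_pos hW0p), sum_comm, Ent.mass, mul_sum]
    refine sum_le_sum fun x _ => ?_
    rw [← mul_sum, mul_comm s]
    exact mul_le_mul_of_nonneg_left (hsd x) (hW0p x).le
  have hWg : ∀ g x, nodeW Bs t k (shiftH (Bs k) t h g) x = W0 x * exp (Vale.Agent.P150.lin (d x) g) :=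
    fun g x => by rw [nodeW_tilt, tiltG, hW0, mul_assoc, ← exp_add, sub_eq_neg_add]
  have hlinavg : ∀ g, ∑ x, W0 x * Vale.Agent.P150.lin (d x) g
      = Vale.Agent.P150.lin a g * Ent.mass W0 := fun g => by
    simp only [Vale.Agent.P150.lin, sum_mul, mul_sum]
    rw [sum_comm]
    refine sum_congr rfl fun u _ => ?_
    simp only [ha', Ent.avg]
    rw [mul_assoc, div_mul_cancel₀ _ (Ent.mass_pos hW0p).ne', mul_sum]
    exact sum_congr rfl fun x _ => by ring
  have hZ : ∀ g, exp (-(s / 2)) * m * exp (Vale.Agent.P150.lin a g)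
      ≤ Ent.mass (nodeW Bs t k (shiftH (Bs k) t h g)) := fun g => by
    have h1 : exp (-(s / 2)) * m ≤ Ent.mass W0 := by
      rw [hm', Ent.mass, mul_sum]
      refine sum_le_sum fun x _ => ?_
      rw [hW0, mul_comm]
      exact mul_le_mul_of_nonneg_left (exp_le_exp.2 (by linarith [hsd x])) (hW x).le
    refine (mul_le_mul_of_nonneg_right h1 (exp_pos _).le).trans ?_
    set b := Vale.Agent.P150.lin a g with hb
    have h2 : ∀ x, exp b * (W0 x + (W0 x * Vale.Agent.P150.lin (d x) g - b * W0 x))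
        ≤ nodeW Bs t k (shiftH (Bs k) t h g) x := fun x => by
      rw [hWg, show exp b * (W0 x + (W0 x * Vale.Agent.P150.lin (d x) g - b * W0 x))
        = W0 x * (exp b * ((Vale.Agent.P150.lin (d x) g - b) + 1)) by ring]
      refine mul_le_mul_of_nonneg_left ?_ (hW0p x).le
      refine (mul_le_mul_of_nonneg_left (add_one_le_exp _) (exp_pos _).le).trans (le_of_eq ?_)
      rw [← exp_add]; ring_nf
    refine le_trans (le_of_eq ?_) (sum_le_sum fun x _ => h2 x)
    rw [← mul_sum, sum_add_distrib, sum_sub_distrib, hlinavg, ← mul_sum, ← hb, Ent.mass]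
    ring
  set w := fun x => W1 x * (f x - F) with hw'
  set N := fun g => ∑ x, w x * tiltG (d x) g with hN
  have hNeq : ∀ g, N g = Ent.mass (nodeW Bs t k (shiftH (Bs k) t h g))
      * (Ent.avg (nodeW Bs t k (shiftH (Bs k) t h g)) f - F) := fun g => by
    rw [Ent.avg, mul_sub, mul_div_cancel₀ _ (Ent.mass_pos fun x => nodeW_pos _ _ _).ne', Ent.mass,
      sum_mul, ← sum_sub_distrib]
    refine sum_congr rfl fun x _ => ?_
    rw [nodeW_tilt]; simp only [hw', hd, ← hW1]; ring
  have hpt : ∀ g, ∑ x, nodeW Bs t k (shiftH (Bs k) t h g) x * Ent.phi (f x) F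
      ≤ Ent.ent (nodeW Bs t k (shiftH (Bs k) t h g)) f
        + exp (s / 2) / (m * F) * (N g ^ 2 * exp (-Vale.Agent.P150.lin a g)) := fun g => by
    set Wg := nodeW Bs t k (shiftH (Bs k) t h g) with hWg'
    have hWgp : ∀ x, 0 < Wg x := fun x => nodeW_pos _ _ _
    rw [Ent.ent_eq hWgp]
    refine add_le_add le_rfl ?_
    have hZp := Ent.mass_pos hWgp
    refine (mul_le_mul_of_nonneg_left (Ent.phi_le_sq_div (Ent.avg_pos hWgp hf) hFp) hZp.le).trans ?_
    have e : Ent.mass Wg * ((Ent.avg Wg f - F) ^ 2 / F) = N g ^ 2 / (Ent.mass Wg * F) := by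
      rw [hNeq g, ← hWg']; field_simp
    rw [e]
    have hle := mul_le_mul_of_nonneg_right (hZ g) hFp.le
    refine (div_le_div_of_nonneg_left (sq_nonneg _) (by positivity) hle).trans (le_of_eq ?_)
    rw [exp_neg, exp_neg]
    field_simp
  have hsq : ∀ g, N g ^ 2 * exp (-Vale.Agent.P150.lin a g)
      = ∑ x, ∑ y, w x * w y * (tiltG (d x) g * tiltG (d y) g * exp (-Vale.Agent.P150.lin a g)) := fun g => by
    rw [hN, pow_two, sum_mul_sum, sum_mul]
    refine sum_congr rfl fun x _ => ?_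
    rw [sum_mul]; exact sum_congr rfl fun y _ => by ring
  have iN : Integrable (fun g => N g ^ 2 * exp (-Vale.Agent.P150.lin a g)) (gp (Fin n)) := by
    simp only [hsq]
    exact integrable_finsetSum _ fun x _ => integrable_finsetSum _ fun y _ =>
      (integral_three (d x) (d y) a).1.const_mul _
  have hw0 : ∑ x, w x = 0 := by
    simp only [hw', mul_sub, sum_sub_distrib]
    rw [Ent.sum_eq_avg hW f, ← sum_mul, ← hF]; ring
  have hwabs : ∑ x, |w x| ≤ m * hi := by
    rw [hm', Ent.mass, sum_mul]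
    refine sum_le_sum fun x _ => ?_
    rw [abs_mul, abs_of_pos (hW x)]
    exact mul_le_mul_of_nonneg_left
      (abs_le.2 ⟨by linarith [hflo x, hFb.2], by linarith [hfhi x, hFb.1]⟩) (hW x).le
  have hcov : ∀ u, ∑ x, w x * d x u = t * (m * bvec (Bs k) (Ent.covVec W1 f) u) := fun u => by
    have e1 : ∀ j, m * Ent.covVec W1 f j = ∑ x, w x * spin (x j) := fun j => by
      have a1 : ∑ x, W1 x * (f x * spin (x j)) = Ent.avg W1 (fun x => f x * spin (x j)) * m :=
        Ent.sum_eq_avg hW _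
      have a2 : ∑ x, W1 x * spin (x j) = Ent.avg W1 (fun x => spin (x j)) * m := Ent.sum_eq_avg hW _
      have a3 : ∑ x, w x * spin (x j) = ∑ x, W1 x * (f x * spin (x j)) - F * ∑ x, W1 x * spin (x j) := by
        rw [mul_sum, ← sum_sub_distrib]
        exact sum_congr rfl fun x _ => by simp only [hw']; ring
      rw [a3, a1, a2, Ent.covVec, ← hF]; ring
    simp only [bvec, mul_sum, hd, dir, Ent.lin]
    rw [sum_comm]
    refine sum_congr rfl fun j _ => ?_
    rw [show t * (m * (Bs k u j * Ent.covVec W1 f j)) = t * Bs k u j * (m * Ent.covVec W1 f j) by ring,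
      e1, mul_sum]
    exact sum_congr rfl fun x _ => by ring
  have hI : ∫ g, N g ^ 2 * exp (-Vale.Agent.P150.lin a g) ∂gp (Fin n)
      ≤ t ^ 2 * m ^ 2 * ∑ u, bvec (Bs k) (Ent.covVec W1 f) u ^ 2 + 16 * s ^ 2 * (m * hi) ^ 2 := by
    simp only [hsq]
    rw [integral_finsetSum _ fun x _ => integrable_finsetSum _ fun y _ =>
      (integral_three (d x) (d y) a).1.const_mul _]
    simp only [fun x => integral_finsetSum (univ : Finset (Conf n)) fun y _ =>
      (integral_three (d x) (d y) a).1.const_mul (w x * w y), integral_const_mul, (integral_three _ _ _).2]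
    refine (sum_exp_couple_le w d a hw0 hs hs0 hsd ha).trans (add_le_add (le_of_eq ?_) ?_)
    · simp only [hcov, mul_pow, ← mul_sum]; ring
    · exact mul_le_mul_of_nonneg_left (pow_le_pow_left₀ (sum_nonneg fun x _ => abs_nonneg _) hwabs 2)
        (by positivity)
  obtain ⟨iE, -⟩ := ent_children (Bs := Bs) (t := t) hf k h
  have hmain : Ent.ent W1 f ≤ ∫ g, Ent.ent (nodeW Bs t k (shiftH (Bs k) t h g)) f ∂gp (Fin n)
      + exp (s / 2) / (m * F) * ∫ g, N g ^ 2 * exp (-Vale.Agent.P150.lin a g) ∂gp (Fin n) := by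
    rw [← integral_const_mul, ← integral_add iE (iN.const_mul _)]
    refine le_trans (le_of_eq ?_) (integral_mono (integrable_sum_nodeW k h fun x => Ent.phi (f x) F)
      (iE.add (iN.const_mul _)) hpt)
    rw [integral_sum_nodeW]; rfl
  have he2 : exp (s / 2) ≤ 2 := by
    have h1 : |s / 2| ≤ 1 := by rw [abs_of_nonneg (by linarith)]; linarith
    have h2 := (abs_le.1 (abs_exp_sub_one_sub_id_le h1)).2
    nlinarith
  refine hmain.trans (add_le_add le_rfl ?_)
  refine (mul_le_mul_of_nonneg_left hI (by positivity)).trans ?_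
  have hX : 0 ≤ t ^ 2 * m ^ 2 * ∑ u, bvec (Bs k) (Ent.covVec W1 f) u ^ 2 :=
    mul_nonneg (by positivity) (sum_nonneg fun u _ => sq_nonneg _)
  refine (mul_le_mul_of_nonneg_right (div_le_div_of_nonneg_right he2 (by positivity))
    (by positivity)).trans ?_
  rw [mul_add, mul_add 2]
  refine add_le_add (le_of_eq (by field_simp)) ?_
  have h1 : 2 / (m * F) * (16 * s ^ 2 * (m * hi) ^ 2) = 2 * (16 * s ^ 2 * hi ^ 2 * m / F) := by
    field_simp
  rw [h1, show 16 * s ^ 2 * hi ^ 2 / lo * m = 16 * s ^ 2 * hi ^ 2 * m / lo by ring]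
  exact mul_le_mul_of_nonneg_left (div_le_div_of_nonneg_left (by positivity) hlo hFb.1) (by norm_num)

/-- Covariances with the coordinates are at most twice the mean. -/
theorem covVec_crude {W f : Conf n → ℝ} (hW : ∀ x, 0 < W x) (hf : ∀ x, 0 < f x) :
    ∑ j, Ent.covVec W f j ^ 2 ≤ 4 * n * Ent.avg W f ^ 2 := by
  have hF := Ent.avg_pos hW hf
  have key : ∀ j, |Ent.covVec W f j| ≤ 2 * Ent.avg W f := fun j => by
    have h1 : |Ent.avg W fun x => f x * spin (x j)| ≤ Ent.avg W f := by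
      rw [Ent.avg, Ent.avg, abs_div, abs_of_pos (Ent.mass_pos hW)]
      refine div_le_div_of_nonneg_right ((abs_sum_le_sum_abs _ _).trans (sum_le_sum fun x _ => ?_))
        (Ent.mass_pos hW).le
      rw [abs_mul, abs_mul, abs_of_pos (hW x), abs_of_pos (hf x)]
      cases x j <;> simp [spin]
    have h2 := Ent.avg_mem hW (f := fun x : Conf n => spin (x j)) (a := -1) (b := 1)
      (fun x => by cases x j <;> simp [spin]) (fun x => by cases x j <;> simp [spin])
    have h3 : |Ent.avg W f * Ent.avg W fun x => spin (x j)| ≤ Ent.avg W f := by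
      rw [abs_mul, abs_of_pos hF]; exact mul_le_of_le_one_right hF.le (abs_le.2 h2)
    exact (abs_sub _ _).trans (by linarith)
  calc ∑ j, Ent.covVec W f j ^ 2 ≤ ∑ _j : Fin n, (2 * Ent.avg W f) ^ 2 :=
        sum_le_sum fun j _ => by rw [← sq_abs]; exact pow_le_pow_left₀ (abs_nonneg _) (key j) 2
    _ = _ := by simp; ring

/-- Defective tensorisation. -/
theorem defective {G : ℕ → Set (Vec n)} (hG : ∀ k, MeasurableSet (G k)) {f : Conf n → ℝ}
    {lo hi R C Λ θ : ℝ} {K : ℕ} (hlo : 0 < lo) (hflo : ∀ x, lo ≤ f x) (hfhi : ∀ x, f x ≤ hi)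
    (hR : ∀ k x, Ent.quad (Bs k) x ≤ R) (hs : 4 * (t ^ 2 * R) ≤ 1) (hC : 0 < C) (hΛ : 0 ≤ Λ)
    (hop : ∀ k, ∀ v : Vec n, ∑ u, bvec (Bs k) v u ^ 2 ≤ Λ * ∑ j, v j ^ 2) (hθ : 0 < θ)
    (hsmall : 8 * C * Λ * t ^ 2 ≤ 1 / 2)
    (hsub : ∀ k, k ≤ K → ∀ h, badF Bs t G (fun _ => 1) k h ≤ θ * Ent.mass (nodeW Bs t k h) →
      SubG (nodeW Bs t k h) C) :
    ∀ k, k ≤ K → ∀ h, Ent.ent (nodeW Bs t k h) f ≤ exp (16 * C * Λ * t ^ 2 * k)
      * (Ent.entTot (nodeW Bs t k h) f + k * (8 * t ^ 2 * Λ * n * hi / θ * badF Bs t G (fun _ => 1) k h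
        + 32 * (t ^ 2 * R) ^ 2 * hi ^ 2 / lo * Ent.mass (nodeW Bs t k h))) := by
  have hf : ∀ x, 0 < f x := fun x => hlo.trans_le (hflo x)
  have hhi : 0 < hi := hlo.trans_le ((hflo default).trans (hfhi default))
  intro k
  induction k with
  | zero =>
    intro _ h
    simp only [Nat.cast_zero, mul_zero, exp_zero, one_mul, zero_mul, add_zero]
    have e0 : nodeW Bs t 0 h = Ent.prodW (fun j b => exp (h j * spin b)) := by
      funext x; simp [nodeW, Ent.wt, Ent.lin, Ent.prodW, exp_sum]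
    rw [e0]
    exact Ent.ent_le_entTot_prod n _ (fun _ _ => exp_pos _) f hf
  | succ k ih =>
    intro hk h
    set W1 := nodeW Bs t (k + 1) h with hW1
    have hW : ∀ x, 0 < W1 x := fun x => nodeW_pos _ _ _
    set E1 := Ent.ent W1 f with hE1
    set T := Ent.entTot W1 f with hT
    set V := badF Bs t G (fun _ => 1) (k + 1) h with hV
    set m := Ent.mass W1 with hm'
    set F := Ent.avg W1 f with hF
    have hm : 0 < m := Ent.mass_pos hW
    have hFp : 0 < F := Ent.avg_pos hW hf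
    have hV0 : 0 ≤ V := badF_nonneg hG (fun _ => zero_le_one) _ _
    have hT0 : 0 ≤ T := sum_nonneg fun i _ => Ent.entSite_nonneg hW hf i
    set α := 8 * t ^ 2 * Λ * n * hi / θ with hα
    set β := 32 * (t ^ 2 * R) ^ 2 * hi ^ 2 / lo with hβ
    have hα0 : 0 ≤ α := by rw [hα]; positivity
    have hβ0 : 0 ≤ β := by rw [hβ]; positivity
    set e := exp (16 * C * Λ * t ^ 2 * k) with he
    have he1 : 1 ≤ e := one_le_exp (by positivity)
    -- the covariance term
    have hcov : 2 * (t ^ 2 * (m / F) * ∑ u, bvec (Bs k) (Ent.covVec W1 f) u ^ 2)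
        ≤ 8 * C * Λ * t ^ 2 * E1 + α * V := by
      have hE0 : 0 ≤ E1 := Ent.ent_nonneg hW hf
      have h0 := mul_le_mul_of_nonneg_left (hop k (Ent.covVec W1 f))
        (show 0 ≤ 2 * (t ^ 2 * (m / F)) by positivity)
      by_cases hb : V ≤ θ * m
      · have h1 := covVec_sq_le_subG hW hf hC (hsub (k + 1) hk h hb)
        rw [← hm', ← hF, ← hE1] at h1
        have h2 : m / F * ∑ j, Ent.covVec W1 f j ^ 2 ≤ 4 * C * E1 := by
          rw [div_mul_eq_mul_div, div_le_iff₀ hFp]; linarith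
        have h3 := mul_le_mul_of_nonneg_left h2 (show 0 ≤ 2 * t ^ 2 * Λ by positivity)
        have h4 := mul_nonneg hα0 hV0
        linarith
      · have h2 : m / F * ∑ j, Ent.covVec W1 f j ^ 2 ≤ 4 * n * (F * m) := by
          rw [div_mul_eq_mul_div, div_le_iff₀ hFp]
          have := mul_le_mul_of_nonneg_left (covVec_crude hW hf) hm.le
          rw [← hF] at this
          linarith
        have h3 : F * m ≤ hi * V / θ := by
          rw [le_div_iff₀ hθ]
          have := mul_le_mul_of_nonneg_right (Ent.avg_mem hW hflo hfhi).2 (show 0 ≤ θ * m by positivity)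
          have h5 := mul_le_mul_of_nonneg_left (le_of_not_ge hb) hhi.le
          rw [← hF] at this
          linarith
        have h4 := mul_le_mul_of_nonneg_left (h2.trans (mul_le_mul_of_nonneg_left h3 (by positivity)))
          (show 0 ≤ 2 * t ^ 2 * Λ by positivity)
        have h5 : 2 * t ^ 2 * Λ * (4 * n * (hi * V / θ)) = α * V := by rw [hα]; ring
        have h6 : 0 ≤ 8 * C * Λ * t ^ 2 * E1 := by positivity
        linarith
    -- the children
    obtain ⟨iE, -⟩ := ent_children (Bs := Bs) (t := t) hf k h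
    set U := fun g => ∑ x, nodeW Bs t k (shiftH (Bs k) t h g) x * ∑ i, Ent.phi (f x) (Ent.pairAvg W1 f i x)
    have hU : ∀ g, Ent.entTot (nodeW Bs t k (shiftH (Bs k) t h g)) f ≤ U g := fun g => by
      refine (sum_le_sum fun i _ => Ent.entSite_le (fun x => nodeW_pos _ _ _) hf i
        (Ent.pairAvg_pos hW hf i) (Ent.pairAvg_flip _ f i)).trans (le_of_eq ?_)
      rw [sum_comm]; exact sum_congr rfl fun x _ => (mul_sum _ _ _).symm
    have iU : Integrable U (gp (Fin n)) := integrable_sum_nodeW k h _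
    have eU : ∫ g, U g ∂gp (Fin n) = T := by
      rw [integral_sum_nodeW, hT, Ent.entTot]
      simp only [mul_sum]
      rw [sum_comm]; rfl
    have iV := integrable_badF (Bs := Bs) (t := t) hG (fun _ => (1 : ℝ)) k h
    have iM : Integrable (fun g => Ent.mass (nodeW Bs t k (shiftH (Bs k) t h g))) (gp (Fin n)) := by
      simpa [Ent.mass] using integrable_sum_nodeW (Bs := Bs) (t := t) k h fun _ => (1 : ℝ)
    have eM : ∫ g, Ent.mass (nodeW Bs t k (shiftH (Bs k) t h g)) ∂gp (Fin n) = m := by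
      have := integral_sum_nodeW (Bs := Bs) (t := t) k h fun _ => (1 : ℝ)
      simpa [Ent.mass, hm', hW1] using this
    have hint : ∫ g, Ent.ent (nodeW Bs t k (shiftH (Bs k) t h g)) f ∂gp (Fin n) ≤ e * (T + k * (α * V + β * m)) := by
      have hb2 : Integrable (fun g => α * badF Bs t G (fun _ => 1) k (shiftH (Bs k) t h g)
          + β * Ent.mass (nodeW Bs t k (shiftH (Bs k) t h g))) (gp (Fin n)) :=
        (iV.const_mul α).add (iM.const_mul β)
      refine (integral_mono iE ((iU.add (hb2.const_mul (k : ℝ))).const_mul e) fun g => ?_).trans ?_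
      · refine (ih (Nat.le_of_succ_le hk) _).trans ?_
        simp only [Pi.add_apply]
        exact mul_le_mul_of_nonneg_left (add_le_add (hU g) le_rfl) (zero_le_one.trans he1)
      · simp only [Pi.add_apply]
        rw [integral_const_mul, integral_add iU (hb2.const_mul _), integral_const_mul,
          integral_add (iV.const_mul α) (iM.const_mul β), integral_const_mul, integral_const_mul, eU, eM]
        refine mul_le_mul_of_nonneg_left (add_le_add le_rfl (mul_le_mul_of_nonneg_left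
          (add_le_add ?_ le_rfl) (Nat.cast_nonneg k))) (zero_le_one.trans he1)
        exact mul_le_mul_of_nonneg_left (integral_badF_le hG (fun _ => zero_le_one) k h) hα0
    have hstep := tensor_step hlo hflo hfhi hR hs k h
    rw [← hW1, ← hE1, ← hm', ← hF, mul_add,
      show 2 * (16 * (t ^ 2 * R) ^ 2 * hi ^ 2 / lo * m) = β * m by rw [hβ]; ring] at hstep
    set γ' := 8 * C * Λ * t ^ 2 with hγ
    have hγ0 : 0 ≤ γ' := by rw [hγ]; positivity
    have h1 : (1 - γ') * E1 ≤ e * (T + ((k + 1 : ℕ) : ℝ) * (α * V + β * m)) := by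
      have h2 := mul_le_mul_of_nonneg_right he1 (show 0 ≤ α * V + β * m by positivity)
      push_cast
      linarith
    have h2 : 1 ≤ exp (2 * γ') * (1 - γ') := by
      have h3 := mul_le_mul_of_nonneg_right (add_one_le_exp (2 * γ')) (by linarith : 0 ≤ 1 - γ')
      linarith [mul_le_mul_of_nonneg_left hsmall hγ0]
    have hexp : exp (16 * C * Λ * t ^ 2 * (k + 1 : ℕ)) = exp (2 * γ') * e := by
      rw [he, ← exp_add, hγ]; push_cast; ring_nf
    rw [hexp, mul_assoc (exp (2 * γ'))]
    calc E1 = 1 * E1 := (one_mul _).symm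
      _ ≤ exp (2 * γ') * (1 - γ') * E1 := mul_le_mul_of_nonneg_right h2 (Ent.ent_nonneg hW hf)
      _ ≤ _ := by rw [mul_assoc]; exact mul_le_mul_of_nonneg_left h1 (exp_pos _).le

end Vale.Agent.P150.Fast.Drift
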