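import Vale.Agent.P150.Gauss
import Vale.Agent.P150.Fast.Chan

/-!
Gaussian identities for the localisation steps (P150): change of mean, the first moments, the
distance between an exponential weight and its linearisation, and sums of two Gaussian vectors.
-/

open MeasureTheory ProbabilityTheory Real Finset

namespace Vale.Agent.P150.Fast.Drift

variable {n : ℕ}

/-- The density of `N(a, 1)` relative to the standard Gaussian. -/
noncomputable def tiltG (a g : Fin n → ℝ) : ℝ :=
  exp (Vale.Agent.P150.lin a g - (∑ u, a u ^ 2) / 2)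

@[fun_prop]
theorem continuous_tiltG (a : Fin n → ℝ) : Continuous (tiltG a) := by unfold tiltG; fun_prop

theorem tiltG_pos (a g : Fin n → ℝ) : 0 < tiltG a g := exp_pos _

theorem integrable_tiltG (a : Fin n → ℝ) : Integrable (tiltG a) (gp (Fin n)) := by
  have := (mgf_lin a).1.mul_const (exp (-((∑ u, a u ^ 2) / 2)))
  refine this.congr (ae_of_all _ fun g => ?_)
  simp only [tiltG, ← exp_add, sub_eq_add_neg]

theorem integral_tiltG (a : Fin n → ℝ) : ∫ g, tiltG a g ∂gp (Fin n) = 1 := by
  simp only [tiltG, sub_eq_add_neg, exp_add]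
  rw [integral_mul_const, (mgf_lin a).2, ← exp_add, add_neg_cancel, exp_zero]

/-- Change of mean. -/
theorem cm_integral (a : Fin n → ℝ) (F : (Fin n → ℝ) → ℝ) :
    ∫ g, tiltG a g * F g ∂gp (Fin n) = ∫ g, F (fun u => g u + a u) ∂gp (Fin n) := by
  have hfin : ∀ᵐ x : Fin n → ℝ, ENNReal.ofReal (∏ i, gaussianPDFReal 0 1 (x i)) < ⊤ :=
    ae_of_all _ fun x => ENNReal.ofReal_lt_top
  rw [gp_density, integral_withDensity_eq_integral_toReal_smul (by fun_prop) hfin,
    integral_withDensity_eq_integral_toReal_smul (by fun_prop) hfin]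
  simp only [ENNReal.toReal_ofReal (prod_nonneg fun i _ => gaussianPDFReal_nonneg 0 1 _),
    smul_eq_mul]
  simp only [prod_pdf]
  conv_rhs => rw [← integral_sub_right_eq_self _ a]
  refine integral_congr_ae (ae_of_all _ fun g => ?_)
  simp only [Pi.sub_apply, sub_add_cancel, tiltG]
  rw [← mul_assoc, div_mul_eq_mul_div, ← exp_add]
  congr 3
  simp only [dotProduct, Pi.sub_apply, Vale.Agent.P150.lin]
  rw [sum_div, sum_div, sum_div, ← sum_neg_distrib, ← sum_neg_distrib, ← sum_sub_distrib,
    ← sum_add_distrib]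
  exact sum_congr rfl fun i _ => by ring

theorem integrable_sq_coord (u : Fin n) : Integrable (fun g : Fin n → ℝ => g u ^ 2) (gp (Fin n)) := by
  have h : MeasurePreserving (fun g : Fin n → ℝ => g u) (gp (Fin n)) (gaussianReal 0 1) :=
    measurePreserving_eval _ u
  exact (h.integrable_comp (by fun_prop)).2 (memLp_id_gaussianReal 2).integrable_sq

theorem integrable_lin (a : Fin n → ℝ) :
    Integrable (fun g => Vale.Agent.P150.lin a g) (gp (Fin n)) := by
  unfold Vale.Agent.P150.lin
  exact integrable_finsetSum _ fun u _ => (integrable_coord u).mul_const _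

theorem integral_lin (a : Fin n → ℝ) : ∫ g, Vale.Agent.P150.lin a g ∂gp (Fin n) = 0 := by
  unfold Vale.Agent.P150.lin
  rw [integral_finsetSum _ fun u _ => (integrable_coord u).mul_const _]
  refine sum_eq_zero fun u _ => ?_
  have h := ibp_gen (F := fun _ : Fin n → ℝ => (1 : ℝ)) (F' := fun _ => (0 : ℝ)) u
    (integrable_const _) (integrable_const _) (by simpa using integrable_coord u)
    fun g => hasDerivAt_const _ _
  simp at h
  rw [integral_mul_const, h, zero_mul]

theorem integrable_coord_lin (u : Fin n) (a : Fin n → ℝ) :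
    Integrable (fun g => g u * Vale.Agent.P150.lin a g) (gp (Fin n)) := by
  have : ∀ g : Fin n → ℝ, g u * Vale.Agent.P150.lin a g = ∑ v, a v * (g u * g v) := fun g => by
    simp only [Vale.Agent.P150.lin, mul_sum]; exact sum_congr rfl fun v _ => by ring
  simp only [this]
  refine integrable_finsetSum _ fun v _ => Integrable.const_mul ?_ _
  refine ((integrable_sq_coord u).add (integrable_sq_coord v)).mono'
    (by fun_prop) (ae_of_all _ fun g => ?_)
  rw [Real.norm_eq_abs, abs_mul]
  simp only [Pi.add_apply]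
  nlinarith [sq_nonneg (|g u| - |g v|), sq_abs (g u), sq_abs (g v)]

theorem integral_coord_lin (u : Fin n) (a : Fin n → ℝ) :
    ∫ g, g u * Vale.Agent.P150.lin a g ∂gp (Fin n) = a u := by
  rw [ibp_gen (F' := fun _ => a u) u (integrable_lin a) (integrable_const _)
    (integrable_coord_lin u a) fun g => ?_]
  · simp
  · simp only [lin_update]
    simpa using ((hasDerivAt_id (g u)).mul_const (a u)).add_const
      (∑ j ∈ Finset.univ.erase u, g j * a j)

theorem integrable_lin_sq (a : Fin n → ℝ) :
    Integrable (fun g => Vale.Agent.P150.lin a g ^ 2) (gp (Fin n)) := by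
  have : ∀ g : Fin n → ℝ, Vale.Agent.P150.lin a g ^ 2 = ∑ u, a u * (g u * Vale.Agent.P150.lin a g) := by
    intro g
    rw [pow_two]
    conv_lhs => arg 1; unfold Vale.Agent.P150.lin
    rw [sum_mul]; exact sum_congr rfl fun u _ => by ring
  simp only [this]
  exact integrable_finsetSum _ fun u _ => (integrable_coord_lin u a).const_mul _

theorem integral_lin_sq (a : Fin n → ℝ) :
    ∫ g, Vale.Agent.P150.lin a g ^ 2 ∂gp (Fin n) = ∑ u, a u ^ 2 := by
  have : ∀ g : Fin n → ℝ, Vale.Agent.P150.lin a g ^ 2 = ∑ u, a u * (g u * Vale.Agent.P150.lin a g) := by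
    intro g
    rw [pow_two]
    conv_lhs => arg 1; unfold Vale.Agent.P150.lin
    rw [sum_mul]; exact sum_congr rfl fun u _ => by ring
  simp only [this]
  rw [integral_finsetSum _ fun u _ => (integrable_coord_lin u a).const_mul _]
  simp only [integral_const_mul, integral_coord_lin, pow_two]

theorem tiltG_mul (a b g : Fin n → ℝ) :
    tiltG a g * tiltG b g = exp (∑ u, a u * b u) * tiltG (fun u => a u + b u) g := by
  simp only [tiltG, Vale.Agent.P150.lin, ← exp_add]
  congr 1
  have e : (∑ u, (a u + b u) ^ 2) = ∑ u, a u ^ 2 + 2 * ∑ u, a u * b u + ∑ u, b u ^ 2 := by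
    rw [mul_sum, ← sum_add_distrib, ← sum_add_distrib]; exact sum_congr rfl fun u _ => by ring
  simp only [mul_add, sum_add_distrib, e]
  ring

theorem abs_exp_rem {z : ℝ} (hz : |z| ≤ 1) : |exp z - 1 - z| ≤ z ^ 2 :=
  abs_exp_sub_one_sub_id_le hz

/-- An exponential weight against its linearisation, in mean square. -/
theorem tiltG_lin_sq (a : Fin n → ℝ) :
    Integrable (fun g => (tiltG a g - 1 - Vale.Agent.P150.lin a g) ^ 2) (gp (Fin n)) ∧
    ∫ g, (tiltG a g - 1 - Vale.Agent.P150.lin a g) ^ 2 ∂gp (Fin n)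
      = exp (∑ u, a u ^ 2) - 1 - ∑ u, a u ^ 2 := by
  set L := fun g : Fin n → ℝ => Vale.Agent.P150.lin a g with hL
  have i1 : Integrable (fun g => tiltG a g * tiltG a g) (gp (Fin n)) := by
    simp only [tiltG_mul]; exact (integrable_tiltG _).const_mul _
  have e1 : ∫ g, tiltG a g * tiltG a g ∂gp (Fin n) = exp (∑ u, a u ^ 2) := by
    simp only [tiltG_mul]
    rw [integral_const_mul, integral_tiltG, mul_one]; simp only [pow_two]
  have i3 : Integrable (fun g => tiltG a g * L g) (gp (Fin n)) := by
    refine (i1.add (integrable_lin_sq a)).mono' (by fun_prop) (ae_of_all _ fun g => ?_)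
    rw [Real.norm_eq_abs, abs_mul]
    simp only [Pi.add_apply]
    nlinarith [sq_nonneg (|tiltG a g| - |L g|), sq_abs (tiltG a g), sq_abs (L g)]
  have e3 : ∫ g, tiltG a g * L g ∂gp (Fin n) = ∑ u, a u ^ 2 := by
    rw [cm_integral]
    have : ∀ g : Fin n → ℝ, L (fun u => g u + a u) = L g + ∑ u, a u ^ 2 := fun g => by
      simp [hL, Vale.Agent.P150.lin, add_mul, sum_add_distrib, pow_two]
    simp only [this]
    rw [integral_add (integrable_lin a) (integrable_const _), integral_lin]
    simp
  have he : ∀ g, (tiltG a g - 1 - L g) ^ 2 = tiltG a g * tiltG a g - 2 * (tiltG a g * L g)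
      + L g ^ 2 + (-2 * tiltG a g + 2 * L g + 1) := fun g => by ring
  have i4 : Integrable (fun g => -2 * tiltG a g + 2 * L g + 1) (gp (Fin n)) :=
    (((integrable_tiltG a).const_mul _).add ((integrable_lin a).const_mul _)).add (integrable_const _)
  refine ⟨(((i1.sub (i3.const_mul 2)).add (integrable_lin_sq a)).add i4).congr
    (ae_of_all _ fun g => (he g).symm), ?_⟩
  simp only [hL] at he i3 i4 e3 ⊢
  simp only [he]
  have j1 : Integrable (fun g => tiltG a g * tiltG a g
      - 2 * (tiltG a g * Vale.Agent.P150.lin a g)) (gp (Fin n)) := i1.sub (i3.const_mul 2)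
  have j2 : Integrable (fun g => tiltG a g * tiltG a g - 2 * (tiltG a g * Vale.Agent.P150.lin a g)
      + Vale.Agent.P150.lin a g ^ 2) (gp (Fin n)) := j1.add (integrable_lin_sq a)
  have j3 : Integrable (fun g => -2 * tiltG a g + 2 * Vale.Agent.P150.lin a g) (gp (Fin n)) :=
    ((integrable_tiltG a).const_mul _).add ((integrable_lin a).const_mul _)
  rw [integral_add j2 i4, integral_add j1 (integrable_lin_sq a), integral_sub i1 (i3.const_mul 2),
    integral_add j3 (integrable_const _),
    integral_add ((integrable_tiltG a).const_mul _) ((integrable_lin a).const_mul _)]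
  simp only [integral_const_mul, e1, e3, integral_lin_sq, integral_tiltG, integral_lin,
    integral_const, probReal_univ, one_smul]
  ring

/-- The sum of two independent Gaussian vectors. -/
theorem gp_add (a b : ℝ) :
    Measure.map (fun p : (Fin n → ℝ) × (Fin n → ℝ) => fun u => a * p.1 u + b * p.2 u)
        ((gp (Fin n)).prod (gp (Fin n)))
      = Measure.map (fun g : Fin n → ℝ => fun u => √(a ^ 2 + b ^ 2) * g u) (gp (Fin n)) := by
  have h1 : Measure.map (fun p : ℝ × ℝ => a * p.1 + b * p.2)
      ((gaussianReal 0 1).prod (gaussianReal 0 1))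
      = Measure.map (fun x : ℝ => √(a ^ 2 + b ^ 2) * x) (gaussianReal 0 1) := by
    have e : (fun p : ℝ × ℝ => a * p.1 + b * p.2)
        = (fun p : ℝ × ℝ => p.1 + p.2) ∘ Prod.map (a * ·) (b * ·) := rfl
    rw [e, ← Measure.map_map (by fun_prop) (by fun_prop), ← Measure.map_prod_map _ _ (by fun_prop)
      (by fun_prop), gaussianReal_map_const_mul, gaussianReal_map_const_mul,
      gaussianReal_map_const_mul]
    rw [show ∀ μ ν : Measure ℝ, Measure.map (fun p : ℝ × ℝ => p.1 + p.2) (μ.prod ν) = μ.conv ν
      from fun _ _ => rfl, gaussianReal_conv_gaussianReal]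
    congr 1
    · simp
    · ext; simp [sq_sqrt (by positivity : (0 : ℝ) ≤ a ^ 2 + b ^ 2)]
  have mp := measurePreserving_arrowProdEquivProdArrow ℝ ℝ (Fin n)
    (fun _ => gaussianReal 0 1) (fun _ => gaussianReal 0 1)
  have hm : Measurable fun p : (Fin n → ℝ) × (Fin n → ℝ) => fun u => a * p.1 u + b * p.2 u := by
    fun_prop
  rw [show (gp (Fin n)).prod (gp (Fin n)) = _ from mp.map_eq.symm, Measure.map_map hm mp.measurable]
  have e2 : ((fun p : (Fin n → ℝ) × (Fin n → ℝ) => fun u => a * p.1 u + b * p.2 u)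
      ∘ MeasurableEquiv.arrowProdEquivProdArrow ℝ ℝ (Fin n))
      = fun q : Fin n → ℝ × ℝ => fun u => a * (q u).1 + b * (q u).2 := rfl
  rw [e2, Measure.pi_map_pi (fun _ => (by fun_prop : Measurable fun p : ℝ × ℝ => a * p.1 + b * p.2).aemeasurable),
    gp, Measure.pi_map_pi (fun _ => (by fun_prop : Measurable fun x : ℝ => √(a ^ 2 + b ^ 2) * x).aemeasurable)]
  simp only [h1]

end Vale.Agent.P150.Fast.Drift
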