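import Vale.Agent.P150.Ent.Tensor
import Vale.Agent.P150.Fast.StepKL

/-!
Sub-Gaussian laws on the cube (P150): from tails to exponential moments, covariances by entropy,
and product weights.
-/

open Real Finset

namespace Vale.Agent.P150.Fast.Drift

variable {n : ℕ}

/-- All linear functions are sub-Gaussian about their means. -/
def SubG (W : Conf n → ℝ) (C : ℝ) : Prop :=
  ∀ (u : Fin n → ℝ) (l : ℝ), ∑ x, W x * exp (l * (Ent.lin u x - Ent.avg W (Ent.lin u)))
    ≤ Ent.mass W * exp (C * l ^ 2 * ∑ j, u j ^ 2)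

/-- Covariances with linear functions are controlled by entropy. -/
theorem covVec_sq_le_subG {W f : Conf n → ℝ} (hW : ∀ x, 0 < W x) (hf : ∀ x, 0 < f x) {C : ℝ}
    (hC : 0 < C) (h : SubG W C) :
    Ent.mass W * ∑ j, Ent.covVec W f j ^ 2 ≤ 4 * C * Ent.avg W f * Ent.ent W f := by
  set c := Ent.covVec W f with hc
  set F := Ent.avg W f with hF
  set N := ∑ j, c j ^ 2 with hN
  have hFp : 0 < F := Ent.avg_pos hW hf
  set r := 1 / (2 * C * F) with hr
  set a : Conf n → ℝ := fun x => r * (Ent.lin c x - Ent.avg W (Ent.lin c)) - C * N * r ^ 2 with ha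
  have hexp : ∑ x, W x * exp (a x) ≤ Ent.mass W := by
    have h1 := mul_le_mul_of_nonneg_right (h c r) (exp_pos (-(C * N * r ^ 2))).le
    rw [sum_mul, mul_assoc (Ent.mass W), ← exp_add] at h1
    rw [show C * r ^ 2 * ∑ j, c j ^ 2 + -(C * N * r ^ 2) = 0 by rw [hN]; ring, exp_zero, mul_one] at h1
    refine le_trans (le_of_eq (sum_congr rfl fun x _ => ?_)) h1
    rw [mul_assoc, ← exp_add]
    simp only [ha, sub_eq_add_neg]
  have hpt : ∀ x, W x * (f x * a x) ≤ W x * Ent.phi (f x) F + F * (W x * exp (a x) - W x) := fun x => by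
    have h := Ent.phi_nonneg (hf x) (mul_pos hFp (exp_pos (a x)))
    simp only [Ent.phi, log_mul hFp.ne' (exp_pos (a x)).ne', log_exp] at h ⊢
    linarith [mul_nonneg (hW x).le h]
  have hsum := sum_le_sum (s := univ) fun x _ => hpt x
  rw [sum_add_distrib, ← mul_sum, sum_sub_distrib] at hsum
  have hlin : Ent.avg W (fun x => f x * Ent.lin c x) - F * Ent.avg W (Ent.lin c) = N := by
    have e : ∀ G : Conf n → ℝ, Ent.avg W (fun x => G x * Ent.lin c x)
        = ∑ j, c j * Ent.avg W (fun x => G x * spin (x j)) := fun G => by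
      simp only [Ent.avg, Ent.lin, mul_sum, sum_div]
      rw [sum_comm]
      exact sum_congr rfl fun j _ => sum_congr rfl fun x _ => by ring
    have e1 := e fun _ => 1
    simp only [one_mul] at e1
    rw [e f, show Ent.avg W (Ent.lin c) = _ from e1, hN, mul_sum, ← sum_sub_distrib]
    exact sum_congr rfl fun j _ => by rw [hc, Ent.covVec, ← hF]; ring
  have hfl : ∑ x, W x * (f x * a x) = Ent.mass W * (r * N - C * N * r ^ 2 * F) := by
    have e1 : ∑ x, W x * (f x * Ent.lin c x) = Ent.avg W (fun x => f x * Ent.lin c x) * ∑ x, W x :=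
      Ent.sum_eq_avg hW _
    have e2 : ∑ x, W x * f x = F * ∑ x, W x := Ent.sum_eq_avg hW f
    have e : ∑ x, W x * (f x * a x) = r * ∑ x, W x * (f x * Ent.lin c x)
        - (r * Ent.avg W (Ent.lin c) + C * N * r ^ 2) * ∑ x, W x * f x := by
      rw [mul_sum, mul_sum, ← sum_sub_distrib]
      exact sum_congr rfl fun x _ => by simp only [ha]; ring
    rw [e, e1, e2, ← hlin, Ent.mass]
    ring
  rw [hfl] at hsum
  have hval : Ent.mass W * (r * N - C * N * r ^ 2 * F) = Ent.mass W * N / (4 * (C * F)) := by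
    rw [hr]; field_simp; ring
  rw [hval, div_le_iff₀ (by positivity)] at hsum
  have h2 : F * (∑ x, W x * exp (a x) - ∑ x, W x) ≤ 0 :=
    mul_nonpos_of_nonneg_of_nonpos hFp.le (sub_nonpos.2 hexp)
  refine hsum.trans ?_
  rw [Ent.ent, ← hF]
  linarith [mul_nonneg (mul_pos hC hFp).le (neg_nonneg.2 h2)]

theorem sum_wt_zero (B : Fin n → Fin n → ℝ) (h v : Fin n → ℝ) :
    ∑ x, Ent.wt B 0 h x * exp (Ent.lin v x)
      = Ent.mass (Ent.wt B 0 h) * exp (∑ j, (log (cosh (v j + h j)) - log (cosh (h j)))) := by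
  have hs : ∀ w : Fin n → ℝ, ∑ x : Conf n, exp (Ent.lin w x) = 2 ^ n * ∏ j, cosh (w j) := fun w => by
    have := Ent.sum_exp_lin 1 w
    simpa using this
  have e0 : ∀ x, Ent.wt B 0 h x = exp (Ent.lin h x) := fun x => by simp [Ent.wt]
  simp only [e0, Ent.mass, ← exp_add]
  have e1 : ∀ x : Conf n, Ent.lin h x + Ent.lin v x = Ent.lin (fun j => v j + h j) x := fun x => by
    simp only [Ent.lin, add_mul, sum_add_distrib]; ring
  simp only [e1]
  rw [hs, hs, exp_sum, mul_assoc, ← prod_mul_distrib]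
  congr 1
  refine prod_congr rfl fun j _ => ?_
  rw [exp_sub, exp_log (cosh_pos _), exp_log (cosh_pos _), mul_div_cancel₀ _ (cosh_pos _).ne']

/-- Means at coupling zero. -/
theorem avg_wt_zero (B : Fin n → Fin n → ℝ) (h u : Fin n → ℝ) :
    Ent.avg (Ent.wt B 0 h) (Ent.lin u) = ∑ j, u j * tanh (h j) := by
  have key := sum_wt_zero B h
  have hW : ∀ x, 0 < Ent.wt B 0 h x := fun x => Ent.wt_pos B 0 h x
  have d1 : HasDerivAt (fun s => ∑ x, Ent.tilt (Ent.wt B 0 h) u s x * (fun _ => (1 : ℝ)) x)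
      (∑ x, Ent.tilt (Ent.wt B 0 h) u 0 x * (Ent.lin u x * 1)) 0 :=
    Ent.hasDeriv_tilt_sum _ _ u 0
  have d2 : HasDerivAt (fun s => Ent.mass (Ent.wt B 0 h)
      * exp (∑ j, (log (cosh (s * u j + h j)) - log (cosh (h j)))))
      (Ent.mass (Ent.wt B 0 h) * ∑ j, u j * tanh (h j)) 0 := by
    have hj : ∀ j, HasDerivAt (fun s => log (cosh (s * u j + h j)) - log (cosh (h j)))
        (u j * tanh (h j)) 0 := fun j => by
      refine (((((hasDerivAt_id' (0 : ℝ)).mul_const (u j)).add_const (h j)).cosh).log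
        (cosh_pos _).ne').sub_const _ |>.congr_deriv ?_
      simp [tanh_eq_sinh_div_cosh]; ring
    have := ((HasDerivAt.fun_sum fun j (_ : j ∈ univ) => hj j).exp).const_mul
      (Ent.mass (Ent.wt B 0 h))
    simpa using this
  have hfun : (fun s => ∑ x, Ent.tilt (Ent.wt B 0 h) u s x * (fun _ => (1 : ℝ)) x)
      = fun s => Ent.mass (Ent.wt B 0 h)
        * exp (∑ j, (log (cosh (s * u j + h j)) - log (cosh (h j)))) := by
    funext s
    have := key (fun j => s * u j)
    simp only [Ent.lin, mul_assoc, ← mul_sum] at this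
    simp only [Ent.tilt, Ent.lin, mul_one]
    exact this
  rw [hfun] at d1
  have he := d1.unique d2
  simp only [Ent.tilt, zero_mul, exp_zero, mul_one] at he
  rw [Ent.avg, he, mul_div_cancel_left₀ _ (Ent.mass_pos hW).ne']

/-- The weight at coupling zero is sub-Gaussian. -/
theorem subG_prod (B : Fin n → Fin n → ℝ) (h : Fin n → ℝ) : SubG (Ent.wt B 0 h) (1 / 2) := by
  intro u l
  have key := sum_wt_zero B h
  rw [avg_wt_zero]
  have e : ∀ x, Ent.wt B 0 h x * exp (l * (Ent.lin u x - ∑ j, u j * tanh (h j)))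
      = Ent.wt B 0 h x * exp (Ent.lin (fun j => l * u j) x) * exp (-(l * ∑ j, u j * tanh (h j))) := fun x => by
    rw [mul_assoc, ← exp_add]
    congr 2
    simp only [Ent.lin]
    rw [mul_sub, ← sub_eq_add_neg, mul_sum]
    congr 1
    exact sum_congr rfl fun j _ => by ring
  simp only [e, ← sum_mul, key, mul_assoc (Ent.mass _), ← exp_add]
  refine mul_le_mul_of_nonneg_left (exp_le_exp.2 ?_)
    (Ent.mass_pos fun x => Ent.wt_pos B 0 h x).le
  have := sum_le_sum (s := univ) fun j (_ : j ∈ univ) => log_cosh_shift_le (h j) (l * u j)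
  rw [sum_add_distrib, show ∑ j, l * u j * tanh (h j) = l * ∑ j, u j * tanh (h j) by
    rw [mul_sum]; exact sum_congr rfl fun j _ => by ring,
    show ∑ j, (l * u j) ^ 2 / 2 = 1 / 2 * l ^ 2 * ∑ j, u j ^ 2 by
      rw [mul_sum]; exact sum_congr rfl fun j _ => by ring] at this
  linarith

theorem exp_le_id_add (y : ℝ) : exp y ≤ y + exp (y ^ 2) := by
  rcases le_or_gt |y| 1 with h | h
  · linarith [(abs_le.1 (abs_exp_sub_one_sub_id_le h)).2, add_one_le_exp (y ^ 2)]
  · rcases le_total 0 y with hy | hy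
    · rw [abs_of_nonneg hy] at h
      linarith [exp_le_exp.2 (by nlinarith : y ≤ y ^ 2)]
    · rw [abs_of_nonpos hy] at h
      have : exp y ≤ 1 := exp_le_one_iff.2 hy
      nlinarith [add_one_le_exp (y ^ 2)]

/-- The constant in the exponential moment of the square. -/
noncomputable def sqConst (K : ℝ) : ℝ := K * exp (1 / 2) / (1 - exp (-(1 / 2))) + 1

/-- From Gaussian tails in every unit direction to exponential moments. -/
theorem subG_of_tail {W : Conf n → ℝ} (hW : ∀ x, 0 < W x) {K C : ℝ} (hK : 0 ≤ K) (hC : 0 < C)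
    (h : ∀ u : Fin n → ℝ, ∑ j, u j ^ 2 = 1 → ∀ r : ℝ, 0 ≤ r →
      ∑ x ∈ univ.filter (fun x => r ≤ |Ent.lin u x - Ent.avg W (Ent.lin u)|), W x
        ≤ K * exp (-(r ^ 2 / C)) * Ent.mass W) :
    SubG W (2 * C * (sqConst K + 1)) := by
  have hq : exp (-(1 / 2 : ℝ)) < 1 := exp_lt_one_iff.2 (by norm_num)
  have hM1 : 1 ≤ sqConst K := by
    have : 0 ≤ K * exp (1 / 2) / (1 - exp (-(1 / 2))) := div_nonneg (by positivity) (by linarith)
    unfold sqConst; linarith
  set M := sqConst K with hM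
  have hm := Ent.mass_pos hW
  have unit : ∀ v : Fin n → ℝ, ∑ j, v j ^ 2 = 1 → ∀ l : ℝ,
      ∑ x, W x * exp (l * (Ent.lin v x - Ent.avg W (Ent.lin v)))
        ≤ Ent.mass W * exp (2 * C * (M + 1) * l ^ 2) := by
    intro v hv l
    set X := fun x => Ent.lin v x - Ent.avg W (Ent.lin v) with hX
    have hsq : ∑ x, W x * exp (X x ^ 2 / (2 * C)) ≤ M * Ent.mass W := by
      obtain ⟨x1, hx1⟩ := Finite.exists_max fun x : Conf n => X x ^ 2 / C
      set J := ⌊X x1 ^ 2 / C⌋₊ + 1 with hJ
      have hp : ∀ x, exp (X x ^ 2 / (2 * C))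
          ≤ ∑ j ∈ range J, exp (((j : ℝ) + 1) / 2) * (if (j : ℝ) * C ≤ X x ^ 2 then 1 else 0) := by
        intro x
        set j := ⌊X x ^ 2 / C⌋₊ with hj
        have h0 : 0 ≤ X x ^ 2 / C := by positivity
        have hjm : j ∈ range J := mem_range.2 (Nat.lt_succ_of_le (Nat.floor_mono (hx1 x)))
        refine le_trans ?_ (single_le_sum (f := fun j : ℕ => exp (((j : ℝ) + 1) / 2)
          * (if (j : ℝ) * C ≤ X x ^ 2 then (1 : ℝ) else 0))
          (fun i _ => mul_nonneg (exp_pos _).le (by split <;> norm_num)) hjm)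
        rw [if_pos ((le_div_iff₀ hC).1 (Nat.floor_le h0)), mul_one]
        refine exp_le_exp.2 ?_
        rw [show X x ^ 2 / (2 * C) = X x ^ 2 / C / 2 by ring]
        linarith [Nat.lt_floor_add_one (X x ^ 2 / C)]
      refine (sum_le_sum fun x _ => mul_le_mul_of_nonneg_left (hp x) (hW x).le).trans ?_
      simp only [mul_sum]
      rw [sum_comm]
      have hb : ∀ j : ℕ, ∑ x, W x * (exp (((j : ℝ) + 1) / 2) * (if (j : ℝ) * C ≤ X x ^ 2 then 1 else 0))
          ≤ K * exp (1 / 2) * exp (-(1 / 2)) ^ j * Ent.mass W := by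
        intro j
        have hr := h v hv √((j : ℝ) * C) (sqrt_nonneg _)
        rw [sq_sqrt (by positivity), mul_div_cancel_right₀ _ hC.ne'] at hr
        have e : ∑ x, W x * (exp (((j : ℝ) + 1) / 2) * (if (j : ℝ) * C ≤ X x ^ 2 then 1 else 0))
            = exp (((j : ℝ) + 1) / 2) * ∑ x ∈ univ.filter (fun x => √((j : ℝ) * C) ≤ |X x|), W x := by
          rw [sum_filter, mul_sum]
          refine sum_congr rfl fun x _ => ?_
          have : (j : ℝ) * C ≤ X x ^ 2 ↔ √((j : ℝ) * C) ≤ |X x| := by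
            rw [sqrt_le_iff, sq_abs]; exact ⟨fun h => ⟨abs_nonneg _, h⟩, fun h => h.2⟩
          by_cases h : (j : ℝ) * C ≤ X x ^ 2
          · rw [if_pos h, if_pos (this.1 h)]; ring
          · rw [if_neg h, if_neg (mt this.2 h)]; ring
        rw [e]
        refine (mul_le_mul_of_nonneg_left hr (exp_pos _).le).trans (le_of_eq ?_)
        have e2 : exp (((j : ℝ) + 1) / 2) * exp (-(j : ℝ)) = exp (1 / 2) * exp (-(1 / 2)) ^ j := by
          rw [← exp_nat_mul, ← exp_add, ← exp_add]; ring_nf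
        linear_combination (K * Ent.mass W) * e2
      refine (sum_le_sum fun j _ => hb j).trans ?_
      rw [← sum_mul, ← mul_sum]
      refine mul_le_mul_of_nonneg_right ?_ hm.le
      have hg : ∑ j ∈ range J, exp (-(1 / 2 : ℝ)) ^ j ≤ 1 / (1 - exp (-(1 / 2))) := by
        rw [range_eq_Ico]
        refine (geom_sum_Ico_le_of_lt_one (exp_pos _).le hq).trans (le_of_eq ?_)
        simp
      refine (mul_le_mul_of_nonneg_left hg (by positivity)).trans ?_
      rw [mul_one_div, hM, sqConst]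
      linarith
    rcases le_or_gt (2 * C * l ^ 2) 1 with hl | hl
    · have hc : ∀ x, W x * exp (l * X x)
          ≤ l * (W x * X x) + (W x + 2 * C * l ^ 2 * (W x * exp (X x ^ 2 / (2 * C)) - W x)) := by
        intro x
        have h2 := convexOn_exp.2 (Set.mem_univ (0 : ℝ)) (Set.mem_univ (X x ^ 2 / (2 * C)))
          (by linarith : 0 ≤ 1 - 2 * C * l ^ 2) (by positivity : 0 ≤ 2 * C * l ^ 2) (by ring)
        simp only [smul_eq_mul, mul_zero, zero_add, exp_zero, mul_one] at h2
        rw [show 2 * C * l ^ 2 * (X x ^ 2 / (2 * C)) = (l * X x) ^ 2 by field_simp] at h2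
        have := mul_le_mul_of_nonneg_left ((exp_le_id_add (l * X x)).trans (add_le_add_right h2 _))
          (hW x).le
        linarith
      refine (sum_le_sum fun x _ => hc x).trans ?_
      rw [sum_add_distrib, sum_add_distrib, ← mul_sum, ← mul_sum, sum_sub_distrib]
      have e0 : ∑ x, W x * X x = 0 := by
        simp only [hX, mul_sub, sum_sub_distrib]
        rw [Ent.sum_eq_avg hW, ← sum_mul]; ring
      rw [e0, mul_zero, zero_add]
      have := mul_le_mul_of_nonneg_left hsq (show 0 ≤ 2 * C * l ^ 2 by positivity)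
      have h3 := mul_le_mul_of_nonneg_left (add_one_le_exp (2 * C * (M + 1) * l ^ 2)) hm.le
      have h4 : 0 ≤ 2 * C * l ^ 2 * Ent.mass W := by positivity
      simp only [Ent.mass] at *
      linarith
    · have hc : ∀ x, W x * exp (l * X x) ≤ exp (C * l ^ 2) * (W x * exp (X x ^ 2 / (2 * C))) := fun x => by
        rw [mul_left_comm (exp _), ← exp_add]
        refine mul_le_mul_of_nonneg_left (exp_le_exp.2 ?_) (hW x).le
        have e : C * l ^ 2 + X x ^ 2 / (2 * C) = (2 * C ^ 2 * l ^ 2 + X x ^ 2) / (2 * C) := by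
          field_simp
        rw [e, le_div_iff₀ (by positivity)]
        linarith [sq_nonneg (X x - C * l), sq_nonneg (X x), sq_nonneg (C * l)]
      refine (sum_le_sum fun x _ => hc x).trans ?_
      rw [← mul_sum]
      refine (mul_le_mul_of_nonneg_left hsq (exp_pos _).le).trans ?_
      rw [← mul_assoc, mul_comm _ (Ent.mass W)]
      refine mul_le_mul_of_nonneg_left ?_ hm.le
      have hMe : M ≤ exp M := by linarith [add_one_le_exp M]
      refine (mul_le_mul_of_nonneg_left hMe (exp_pos _).le).trans ?_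
      rw [← exp_add]
      refine exp_le_exp.2 ?_
      linarith [mul_le_mul_of_nonneg_left hl.le (zero_le_one.trans hM1), sq_nonneg l]
  intro u l
  by_cases hu : ∑ j, u j ^ 2 = 0
  · have : u = 0 := funext fun j =>
      pow_eq_zero_iff two_ne_zero |>.1 (sum_eq_zero_iff_of_nonneg (fun j _ => sq_nonneg (u j)) |>.1 hu j (mem_univ j))
    subst this
    simp [Ent.lin, Ent.avg, Ent.mass]
  · have hp : 0 < √(∑ j, u j ^ 2) := sqrt_pos.2 (lt_of_le_of_ne (sum_nonneg fun j _ => sq_nonneg _) (Ne.symm hu))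
    set R := √(∑ j, u j ^ 2) with hR
    have hR2 : R ^ 2 = ∑ j, u j ^ 2 := sq_sqrt (sum_nonneg fun j _ => sq_nonneg _)
    have hlin : ∀ x, Ent.lin (fun j => u j / R) x = Ent.lin u x / R := fun x => by
      simp only [Ent.lin, sum_div]; exact sum_congr rfl fun j _ => by ring
    have hav : Ent.avg W (Ent.lin fun j => u j / R) = Ent.avg W (Ent.lin u) / R := by
      simp only [Ent.avg, hlin, ← mul_div_assoc, ← sum_div]; ring
    have := unit (fun j => u j / R) (by simp only [div_pow, ← sum_div, hR2]; exact div_self hu) (l * R)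
    simp only [hlin, hav, ← sub_div] at this
    have e : ∀ a : ℝ, l * R * (a / R) = l * a := fun a => by field_simp
    simp only [e] at this
    refine this.trans (le_of_eq ?_)
    rw [← hR2]; ring_nf

end Vale.Agent.P150.Fast.Drift
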