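import Vale.Agent.P150.Fast.DriftStmt
import Vale.Agent.P150.Fast.Drift.Gauss
import Vale.Agent.P150.Fast.Drift.SubG

/-!
Nodes of the localisation (P150): one Gaussian step of the weights, the probability of a bad node
in the future, and the Euclidean norm.
-/

open MeasureTheory Real Finset

namespace Vale.Agent.P150.Fast.Drift

variable {n : ℕ} {Bs : ℕ → Fin n → Fin n → ℝ} {t : ℝ}

/-- The weight of a node at level `k`; the step from level `l + 1` to level `l` uses `Bs l`. -/
noncomputable def nodeW (Bs : ℕ → Fin n → Fin n → ℝ) (t : ℝ) (k : ℕ) (h : Vec n) (x : Conf n) : ℝ :=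
  exp (t ^ 2 / 2 * ∑ l ∈ range k, Ent.quad (Bs l) x + Ent.lin h x)

/-- The direction of the tilt of a configuration. -/
def dir (B : Fin n → Fin n → ℝ) (t : ℝ) (x : Conf n) (u : Fin n) : ℝ := t * Ent.lin (B u) x

theorem nodeW_pos (k : ℕ) (h : Vec n) (x : Conf n) : 0 < nodeW Bs t k h x := exp_pos _

theorem nodeW_zero (h : Vec n) : nodeW Bs t 0 h = Ent.wt (Bs 0) 0 h := by
  funext x; simp [nodeW, Ent.wt]

theorem sum_dir_sq (B : Fin n → Fin n → ℝ) (t : ℝ) (x : Conf n) :
    ∑ u, dir B t x u ^ 2 = t ^ 2 * Ent.quad B x := by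
  simp only [dir, mul_pow, ← mul_sum, Ent.quad]

theorem lin_shiftH (B : Fin n → Fin n → ℝ) (t : ℝ) (h g : Vec n) (x : Conf n) :
    Ent.lin (shiftH B t h g) x = Ent.lin h x + Vale.Agent.P150.lin (dir B t x) g := by
  simp only [Ent.lin, shiftH, Vale.Agent.P150.lin, dir, add_mul, sum_add_distrib, mul_sum, sum_mul]
  congr 1
  rw [sum_comm]
  exact sum_congr rfl fun u _ => sum_congr rfl fun j _ => by ring

/-- One step: the child along `g` is the node tilted by `g`. -/
theorem nodeW_tilt (k : ℕ) (h g : Vec n) (x : Conf n) :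
    nodeW Bs t k (shiftH (Bs k) t h g) x = nodeW Bs t (k + 1) h x * tiltG (dir (Bs k) t x) g := by
  simp only [nodeW, tiltG, lin_shiftH, sum_dir_sq, ← exp_add, sum_range_succ]
  congr 1; ring

theorem integrable_nodeW (k : ℕ) (h : Vec n) (x : Conf n) :
    Integrable (fun g => nodeW Bs t k (shiftH (Bs k) t h g) x) (gp (Fin n)) := by
  simp only [nodeW_tilt]; exact (integrable_tiltG _).const_mul _

theorem integral_nodeW (k : ℕ) (h : Vec n) (x : Conf n) :
    ∫ g, nodeW Bs t k (shiftH (Bs k) t h g) x ∂gp (Fin n) = nodeW Bs t (k + 1) h x := by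
  simp only [nodeW_tilt, integral_const_mul, integral_tiltG, mul_one]

/-- The mixture of a linear functional of the children. -/
theorem integral_sum_nodeW (k : ℕ) (h : Vec n) (c : Conf n → ℝ) :
    ∫ g, ∑ x, nodeW Bs t k (shiftH (Bs k) t h g) x * c x ∂gp (Fin n)
      = ∑ x, nodeW Bs t (k + 1) h x * c x := by
  rw [integral_finsetSum _ fun x _ => (integrable_nodeW k h x).mul_const _]
  simp only [integral_mul_const, integral_nodeW]

theorem integrable_sum_nodeW (k : ℕ) (h : Vec n) (c : Conf n → ℝ) :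
    Integrable (fun g => ∑ x, nodeW Bs t k (shiftH (Bs k) t h g) x * c x) (gp (Fin n)) :=
  integrable_finsetSum _ fun x _ => (integrable_nodeW k h x).mul_const _

@[fun_prop]
theorem continuous_shiftH (B : Fin n → Fin n → ℝ) (t : ℝ) :
    Continuous fun p : Vec n × Vec n => shiftH B t p.1 p.2 := by
  unfold shiftH; fun_prop

open Classical in
/-- The conditional probability, given the configuration, of a bad node at or below this one. -/
noncomputable def badP (Bs : ℕ → Fin n → Fin n → ℝ) (t : ℝ) (G : ℕ → Set (Vec n)) :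
    ℕ → Vec n → Conf n → ℝ
  | 0, _, _ => 0
  | k + 1, h, x => if h ∈ G (k + 1) then
      ∫ g, tiltG (dir (Bs k) t x) g * badP Bs t G k (shiftH (Bs k) t h g) x ∂gp (Fin n) else 1

variable {G : ℕ → Set (Vec n)}

theorem badP_prop (hG : ∀ k, MeasurableSet (G k)) (k : ℕ) :
    ∀ x, Measurable (fun h => badP Bs t G k h x) ∧ ∀ h, 0 ≤ badP Bs t G k h x ∧ badP Bs t G k h x ≤ 1 := by
  classical
  induction k with
  | zero => intro x; exact ⟨measurable_const, fun h => ⟨le_rfl, zero_le_one⟩⟩
  | succ k ih =>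
    intro x
    obtain ⟨hm, hb⟩ := ih x
    refine ⟨?_, fun h => ?_⟩
    · refine Measurable.ite (hG (k + 1)) ?_ measurable_const
      have hu : Measurable fun p : Vec n × Vec n =>
          tiltG (dir (Bs k) t x) p.2 * badP Bs t G k (shiftH (Bs k) t p.1 p.2) x :=
        ((continuous_tiltG _).comp continuous_snd).measurable.mul
          (hm.comp (continuous_shiftH (Bs k) t).measurable)
      exact (hu.stronglyMeasurable.integral_prod_right (ν := gp (Fin n))).measurable
    · simp only [badP]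
      split
      · have hi : Integrable (fun g => tiltG (dir (Bs k) t x) g * badP Bs t G k (shiftH (Bs k) t h g) x)
            (gp (Fin n)) :=
          (integrable_tiltG _).mul_bdd (c := 1)
            (hm.comp ((continuous_shiftH (Bs k) t).comp (Continuous.prodMk_right h)).measurable).aestronglyMeasurable
            (ae_of_all _ fun g => by rw [Real.norm_eq_abs, abs_of_nonneg (hb _).1]; exact (hb _).2)
        refine ⟨integral_nonneg fun g => mul_nonneg (tiltG_pos _ _).le (hb _).1, ?_⟩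
        refine (integral_mono hi (integrable_tiltG (dir (Bs k) t x)) fun g => ?_).trans_eq (integral_tiltG _)
        exact mul_le_of_le_one_right (tiltG_pos _ _).le (hb _).2
      · exact ⟨zero_le_one, le_rfl⟩

/-- The mass of `f` on configurations with a bad node at or below. -/
noncomputable def badF (Bs : ℕ → Fin n → Fin n → ℝ) (t : ℝ) (G : ℕ → Set (Vec n)) (f : Conf n → ℝ)
    (k : ℕ) (h : Vec n) : ℝ := ∑ x, nodeW Bs t k h x * f x * badP Bs t G k h x

theorem measurable_shift (B : Fin n → Fin n → ℝ) (t : ℝ) (h : Vec n) :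
    Measurable fun g => shiftH B t h g :=
  ((continuous_shiftH B t).comp (Continuous.prodMk_right h)).measurable

theorem integrable_badF (hG : ∀ k, MeasurableSet (G k)) (f : Conf n → ℝ) (k : ℕ) (h : Vec n) :
    Integrable (fun g => badF Bs t G f k (shiftH (Bs k) t h g)) (gp (Fin n)) :=
  integrable_finsetSum _ fun x _ => ((integrable_nodeW k h x).mul_const _).mul_bdd (c := 1)
    ((badP_prop hG k x).1.comp (measurable_shift (Bs k) t h)).aestronglyMeasurable
    (ae_of_all _ fun g => by
      obtain ⟨h0, h1⟩ := (badP_prop hG k x).2 (shiftH (Bs k) t h g)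
      rw [Real.norm_eq_abs, abs_of_nonneg h0]; exact h1)

theorem integral_badF_le (hG : ∀ k, MeasurableSet (G k)) {f : Conf n → ℝ} (hf : ∀ x, 0 ≤ f x)
    (k : ℕ) (h : Vec n) :
    ∫ g, badF Bs t G f k (shiftH (Bs k) t h g) ∂gp (Fin n) ≤ badF Bs t G f (k + 1) h := by
  classical
  unfold badF
  have hi : ∀ x, Integrable (fun g => tiltG (dir (Bs k) t x) g * badP Bs t G k (shiftH (Bs k) t h g) x)
      (gp (Fin n)) := fun x => (integrable_tiltG _).mul_bdd (c := 1)
    ((badP_prop hG k x).1.comp (measurable_shift (Bs k) t h)).aestronglyMeasurable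
    (ae_of_all _ fun g => by
      obtain ⟨h0, h1⟩ := (badP_prop hG k x).2 (shiftH (Bs k) t h g)
      rw [Real.norm_eq_abs, abs_of_nonneg h0]; exact h1)
  have e : ∀ g x, nodeW Bs t k (shiftH (Bs k) t h g) x * f x * badP Bs t G k (shiftH (Bs k) t h g) x
      = nodeW Bs t (k + 1) h x * f x * (tiltG (dir (Bs k) t x) g * badP Bs t G k (shiftH (Bs k) t h g) x) :=
    fun g x => by rw [nodeW_tilt]; ring
  simp only [e]
  rw [integral_finsetSum _ fun x _ => (hi x).const_mul _]
  simp only [integral_const_mul]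
  refine sum_le_sum fun x _ => mul_le_mul_of_nonneg_left ?_ (mul_nonneg (nodeW_pos _ _ _).le (hf x))
  simp only [badP]
  split
  · exact le_rfl
  · refine (integral_mono (hi x) (integrable_tiltG (dir (Bs k) t x)) fun g => ?_).trans_eq (integral_tiltG _)
    exact mul_le_of_le_one_right (tiltG_pos _ _).le ((badP_prop hG k x).2 _).2

theorem badF_nonneg (hG : ∀ k, MeasurableSet (G k)) {f : Conf n → ℝ} (hf : ∀ x, 0 ≤ f x)
    (k : ℕ) (h : Vec n) : 0 ≤ badF Bs t G f k h :=
  sum_nonneg fun x _ => mul_nonneg (mul_nonneg (nodeW_pos _ _ _).le (hf x)) ((badP_prop hG k x).2 h).1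

theorem badF_le (hG : ∀ k, MeasurableSet (G k)) {f : Conf n → ℝ} (hf : ∀ x, 0 ≤ f x)
    (k : ℕ) (h : Vec n) : badF Bs t G f k h ≤ ∑ x, nodeW Bs t k h x * f x :=
  sum_le_sum fun x _ => mul_le_of_le_one_right (mul_nonneg (nodeW_pos _ _ _).le (hf x))
    ((badP_prop hG k x).2 h).2

theorem badF_of_notMem {f : Conf n → ℝ} {k : ℕ} {h : Vec n} (hh : h ∉ G (k + 1)) :
    badF Bs t G f (k + 1) h = ∑ x, nodeW Bs t (k + 1) h x * f x := by
  simp [badF, badP, hh]

theorem eno_nonneg (v : Vec n) : 0 ≤ eno v := sqrt_nonneg _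

theorem sq_eno (v : Vec n) : eno v ^ 2 = ∑ j, v j ^ 2 := sq_sqrt (sum_nonneg fun j _ => sq_nonneg _)

theorem inner_le_eno (v w : Vec n) : ∑ j, v j * w j ≤ eno v * eno w :=
  Real.sum_mul_le_sqrt_mul_sqrt _ _ _

theorem eno_le_of_unit {v : Vec n} {b : ℝ} (hb : 0 ≤ b)
    (h : ∀ w : Vec n, ∑ j, w j ^ 2 ≤ 1 → ∑ j, v j * w j ≤ b) : eno v ≤ b := by
  rcases (eno_nonneg v).eq_or_lt with h0 | h0
  · rw [← h0]; exact hb
  · have := h (fun j => v j / eno v) (by simp only [div_pow, ← sum_div, ← sq_eno]; rw [div_self (by positivity)])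
    simp only [← mul_div_assoc, ← sum_div, ← pow_two, ← sq_eno] at this
    rwa [pow_two, mul_div_assoc, div_self h0.ne', mul_one] at this

theorem eno_smul (c : ℝ) (v : Vec n) : eno (fun j => c * v j) = |c| * eno v := by
  simp only [eno, mul_pow, ← mul_sum]
  rw [sqrt_mul (sq_nonneg _), sqrt_sq_eq_abs]

theorem eno_add_le (v w : Vec n) : eno (fun j => v j + w j) ≤ eno v + eno w := by
  refine eno_le_of_unit (add_nonneg (eno_nonneg _) (eno_nonneg _)) fun a ha => ?_
  simp only [add_mul, sum_add_distrib]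
  have ha1 : eno a ≤ 1 := by rw [eno]; exact sqrt_le_one.2 ha
  exact add_le_add ((inner_le_eno v a).trans (mul_le_of_le_one_right (eno_nonneg _) ha1))
    ((inner_le_eno w a).trans (mul_le_of_le_one_right (eno_nonneg _) ha1))

theorem eno_le_sqrt {v : Vec n} {b : ℝ} (hb : 0 ≤ b) (h : ∀ j, |v j| ≤ b) : eno v ≤ b * √n := by
  rw [eno, ← sqrt_sq hb, ← sqrt_mul (sq_nonneg _)]
  refine sqrt_le_sqrt ?_
  calc ∑ j, v j ^ 2 ≤ ∑ _j : Fin n, b ^ 2 := sum_le_sum fun j _ => sq_le_sq.2 (by rw [abs_of_nonneg hb]; exact h j)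
    _ = _ := by simp [mul_comm]

theorem eno_integral_le {μ : Measure (Vec n)} {F : Vec n → Vec n} {D : Vec n → ℝ}
    (hF : ∀ j, Integrable (fun g => F g j) μ) (hD : Integrable D μ) (h : ∀ g, eno (F g) ≤ D g) :
    eno (fun j => ∫ g, F g j ∂μ) ≤ ∫ g, D g ∂μ := by
  refine eno_le_of_unit (integral_nonneg fun g => (eno_nonneg _).trans (h g)) fun w hw => ?_
  simp only [← integral_mul_const]
  rw [← integral_finsetSum _ fun j _ => (hF j).mul_const _]
  refine integral_mono (integrable_finsetSum _ fun j _ => (hF j).mul_const _) hD fun g => ?_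
  exact ((inner_le_eno _ w).trans (mul_le_of_le_one_right (eno_nonneg _)
    (by rw [eno]; exact sqrt_le_one.2 hw))).trans (h g)

theorem continuous_ent_child (f : Conf n → ℝ) (hf : ∀ x, 0 < f x) (k : ℕ) (h : Vec n) :
    Continuous fun g => Ent.ent (nodeW Bs t k (shiftH (Bs k) t h g)) f := by
  have hc : ∀ x, Continuous fun g => nodeW Bs t k (shiftH (Bs k) t h g) x := fun x => by
    simp only [nodeW_tilt]; fun_prop
  have hW : ∀ g x, 0 < nodeW Bs t k (shiftH (Bs k) t h g) x := fun g x => nodeW_pos _ _ _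
  have hav : Continuous fun g => Ent.avg (nodeW Bs t k (shiftH (Bs k) t h g)) f :=
    (continuous_finsetSum _ fun x _ => (hc x).mul continuous_const).div
      (continuous_finsetSum _ fun x _ => hc x) fun g => (Ent.mass_pos (hW g)).ne'
  have hl : Continuous fun g => log (Ent.avg (nodeW Bs t k (shiftH (Bs k) t h g)) f) :=
    hav.log fun g => (Ent.avg_pos (hW g) hf).ne'
  unfold Ent.ent
  refine continuous_finsetSum _ fun x _ => (hc x).mul ?_
  unfold Ent.phi
  exact ((continuous_const.sub (continuous_const.mul hl)).sub continuous_const).add hav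

/-- Entropy does not increase on the children, in the mean. -/
theorem ent_children {f : Conf n → ℝ} (hf : ∀ x, 0 < f x) (k : ℕ) (h : Vec n) :
    Integrable (fun g => Ent.ent (nodeW Bs t k (shiftH (Bs k) t h g)) f) (gp (Fin n)) ∧
    ∫ g, Ent.ent (nodeW Bs t k (shiftH (Bs k) t h g)) f ∂gp (Fin n) ≤ Ent.ent (nodeW Bs t (k + 1) h) f := by
  set F := Ent.avg (nodeW Bs t (k + 1) h) f with hF
  have hW : ∀ g x, 0 < nodeW Bs t k (shiftH (Bs k) t h g) x := fun g x => nodeW_pos _ _ _
  have hF0 : 0 < F := Ent.avg_pos (fun x => nodeW_pos _ _ _) hf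
  have iR := integrable_sum_nodeW (Bs := Bs) (t := t) k h fun x => Ent.phi (f x) F
  have hle : ∀ g, Ent.ent (nodeW Bs t k (shiftH (Bs k) t h g)) f
      ≤ ∑ x, nodeW Bs t k (shiftH (Bs k) t h g) x * Ent.phi (f x) F := fun g => Ent.ent_le (hW g) hf hF0
  have hi : Integrable (fun g => Ent.ent (nodeW Bs t k (shiftH (Bs k) t h g)) f) (gp (Fin n)) :=
    iR.mono' (continuous_ent_child f hf k h).aestronglyMeasurable (ae_of_all _ fun g => by
      rw [Real.norm_eq_abs, abs_of_nonneg (Ent.ent_nonneg (hW g) hf)]; exact hle g)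
  refine ⟨hi, (integral_mono hi iR hle).trans_eq ?_⟩
  rw [integral_sum_nodeW]
  rfl

end Vale.Agent.P150.Fast.Drift
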