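import Vale.Agent.P150.Fast.Drift.Base

/-!
The means of a perturbed law stay close to the centres along the localisation (P150): the linear
transport inequality, by induction on the level.
-/

open MeasureTheory Real Finset

namespace Vale.Agent.P150.Fast.Drift

variable {n : ℕ}

/-- The hypotheses on a mesh with `K` levels. -/
structure Mesh (Bs : ℕ → Fin n → Fin n → ℝ) (t L ρ P R : ℝ) (M : ℕ → Vec n → Vec n)
    (G : ℕ → Set (Vec n)) (K : ℕ) : Prop where
  tpos : 0 < t
  Lnn : 0 ≤ L
  ρnn : 0 ≤ ρ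
  Pnn : 0 ≤ P
  quad : ∀ k x, Ent.quad (Bs k) x ≤ R
  small : t ^ 2 * R ≤ 1
  smallL : L * t ^ 2 ≤ 1 / 2
  meas : ∀ k, Measurable (M k)
  bdd : ∀ k h j, |M k h j| ≤ 1
  base : ∀ h j, M 0 h j = tanh (h j)
  measG : ∀ k, MeasurableSet (G k)
  step : ∀ k, k < K → ∀ h ∈ G (k + 1), StepOK (Bs k) t L ρ P M k h

/-- The unnormalised distance of the mean of `f` to the centre. -/
noncomputable def dist1 (Bs : ℕ → Fin n → Fin n → ℝ) (t : ℝ) (M : ℕ → Vec n → Vec n) (f : Conf n → ℝ)
    (k : ℕ) (h : Vec n) : ℝ := eno fun j => ∑ x, nodeW Bs t k h x * f x * (spin (x j) - M k h j)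

/-- The error of one step. -/
noncomputable def stepErr (t ρ P R : ℝ) : ℝ := t ^ 2 * ρ + t ^ 3 * (P + (R ^ 2 + P ^ 2) / 2)

variable {Bs : ℕ → Fin n → Fin n → ℝ} {t L ρ P R : ℝ} {M : ℕ → Vec n → Vec n} {G : ℕ → Set (Vec n)} {K : ℕ}

theorem abs_spin_sub (x : Bool) {m : ℝ} (hm : |m| ≤ 1) : |spin x - m| ≤ 2 := by
  refine (abs_sub _ _).trans ?_
  cases x <;> simp [spin] <;> linarith

theorem dist1_le (hM : Mesh Bs t L ρ P R M G K) {f : Conf n → ℝ} (hf : ∀ x, 0 ≤ f x) (k : ℕ) (h : Vec n) :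
    dist1 Bs t M f k h ≤ 2 * √n * ∑ x, nodeW Bs t k h x * f x := by
  refine le_trans (eno_le_sqrt (b := 2 * ∑ x, nodeW Bs t k h x * f x)
    (mul_nonneg (by norm_num) (sum_nonneg fun x _ => mul_nonneg (nodeW_pos _ _ _).le (hf x))) fun j => ?_)
    (le_of_eq (by ring))
  rw [mul_sum]
  refine (abs_sum_le_sum_abs _ _).trans (sum_le_sum fun x _ => ?_)
  have h0 := mul_nonneg (nodeW_pos (Bs := Bs) (t := t) k h x).le (hf x)
  rw [abs_mul, abs_of_nonneg h0, mul_comm (2 : ℝ)]
  exact mul_le_mul_of_nonneg_left (abs_spin_sub _ (hM.bdd k h j)) h0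

theorem dist1_zero (hM : Mesh Bs t L ρ P R M G K) {f : Conf n → ℝ} (hf : ∀ x, 0 < f x) (h : Vec n)
    {l : ℝ} (hl : 0 < l) :
    dist1 Bs t M f 0 h ≤ l * Ent.ent (nodeW Bs t 0 h) f + (∑ x, nodeW Bs t 0 h x * f x) / (2 * l) := by
  have e0 : nodeW Bs t 0 h = Ent.wt (Bs 0) 0 h := nodeW_zero h
  have hW : ∀ x, 0 < Ent.wt (Bs 0) 0 h x := fun x => Ent.wt_pos _ _ _ _
  rw [e0]
  have e : ∀ j, ∑ x, nodeW Bs t 0 h x * f x * (spin (x j) - M 0 h j)
      = Ent.mass (Ent.wt (Bs 0) 0 h) * Ent.covVec (Ent.wt (Bs 0) 0 h) f j := fun j => by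
    have ht := avg_wt_zero (Bs 0) h (Pi.single j 1)
    have el : Ent.lin (Pi.single j (1 : ℝ)) = fun x : Conf n => spin (x j) := by
      funext x; simp [Ent.lin, Pi.single_apply]
    rw [el] at ht
    simp [Pi.single_apply] at ht
    rw [e0, hM.base, Ent.covVec, ht, mul_sub, Ent.mass, mul_comm _ (Ent.avg _ _),
      ← mul_assoc, mul_comm (∑ x, _) (Ent.avg _ f), ← Ent.sum_eq_avg hW, ← Ent.sum_eq_avg hW,
      sum_mul, ← sum_sub_distrib]
    exact sum_congr rfl fun x _ => by ring
  set m := Ent.mass (Ent.wt (Bs 0) 0 h) with hm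
  set F := Ent.avg (Ent.wt (Bs 0) 0 h) f with hF
  set E := Ent.ent (Ent.wt (Bs 0) 0 h) f with hE
  have hc := covVec_sq_le_subG hW hf (by norm_num) (subG_prod (Bs 0) h)
  have hFm : ∑ x, Ent.wt (Bs 0) 0 h x * f x = F * m := Ent.sum_eq_avg hW f
  rw [hFm]
  simp only [dist1, e, eno_smul]
  have hm0 := Ent.mass_pos hW
  have hF0 := Ent.avg_pos hW hf
  have hE0 := Ent.ent_nonneg hW hf
  rw [abs_of_pos hm0]
  have h2 : (m * eno (Ent.covVec (Ent.wt (Bs 0) 0 h) f)) ^ 2 ≤ 2 * (F * m) * E := by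
    rw [mul_pow, sq_eno, pow_two, mul_assoc]
    calc m * (m * ∑ j, Ent.covVec (Ent.wt (Bs 0) 0 h) f j ^ 2) ≤ m * (4 * (1 / 2) * F * E) :=
          mul_le_mul_of_nonneg_left hc hm0.le
      _ = _ := by ring
  refine le_of_abs_le (abs_le_of_sq_le_sq ?_ (by positivity))
  refine h2.trans ?_
  have : (l * E + F * m / (2 * l)) ^ 2 = (l * E - F * m / (2 * l)) ^ 2 + 2 * (F * m) * E := by
    field_simp; ring
  rw [this]
  linarith [sq_nonneg (l * E - F * m / (2 * l))]

theorem measurable_incr (hM : Mesh Bs t L ρ P R M G K) (k : ℕ) (h : Vec n) (j : Fin n) :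
    Measurable fun g => M k (shiftH (Bs k) t h g) j - M (k + 1) h j :=
  ((measurable_pi_apply j).comp ((hM.meas k).comp (measurable_shift (Bs k) t h))).sub_const _

theorem norm_incr (hM : Mesh Bs t L ρ P R M G K) (k : ℕ) (h g : Vec n) (j : Fin n) :
    ‖M k (shiftH (Bs k) t h g) j - M (k + 1) h j‖ ≤ 2 := by
  rw [Real.norm_eq_abs]
  exact (abs_sub _ _).trans (by linarith [hM.bdd k (shiftH (Bs k) t h g) j, hM.bdd (k + 1) h j])

/-- The mean increment of the centres under the tilt of one configuration. -/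
theorem tilt_incr (hM : Mesh Bs t L ρ P R M G K) {k : ℕ} {h : Vec n}
    (hs : ∫ g, ∑ j, (M k (shiftH (Bs k) t h g) j - M (k + 1) h j) ^ 2 ∂gp (Fin n) ≤ (P * t) ^ 2)
    (x : Conf n) :
    eno (fun j => ∫ g, (tiltG (dir (Bs k) t x) g - 1 - Vale.Agent.P150.lin (dir (Bs k) t x) g)
      * (M k (shiftH (Bs k) t h g) j - M (k + 1) h j) ∂gp (Fin n)) ≤ t ^ 3 * ((R ^ 2 + P ^ 2) / 2) := by
  set a := dir (Bs k) t x
  set d := fun (g : Vec n) (j : Fin n) => M k (shiftH (Bs k) t h g) j - M (k + 1) h j with hd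
  set e := fun g : Vec n => tiltG a g - 1 - Vale.Agent.P150.lin a g with he
  have ht := hM.tpos
  obtain ⟨ie, ee⟩ := tiltG_lin_sq a
  have hq0 : 0 ≤ Ent.quad (Bs k) x := sum_nonneg fun u _ => sq_nonneg _
  have hs1 : ∑ u, a u ^ 2 = t ^ 2 * Ent.quad (Bs k) x := sum_dir_sq (Bs k) t x
  have hsR : t ^ 2 * Ent.quad (Bs k) x ≤ t ^ 2 * R := mul_le_mul_of_nonneg_left (hM.quad k x) (sq_nonneg t)
  have herr : ∫ g, e g ^ 2 ∂gp (Fin n) ≤ t ^ 4 * R ^ 2 := by
    rw [he, ee, hs1]
    have h0 : 0 ≤ t ^ 2 * Ent.quad (Bs k) x := by positivity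
    refine ((le_abs_self _).trans (abs_exp_rem (by rw [abs_of_nonneg h0]; exact hsR.trans hM.small))).trans ?_
    rw [show t ^ 4 * R ^ 2 = (t ^ 2 * R) ^ 2 by ring]
    exact pow_le_pow_left₀ h0 hsR 2
  refine eno_le_of_unit (by positivity) fun w hw => ?_
  have ei : Integrable e (gp (Fin n)) :=
    ((integrable_tiltG a).sub (integrable_const _)).sub (integrable_lin a)
  have hi : ∀ j, Integrable (fun g => e g * d g j) (gp (Fin n)) := fun j =>
    ei.mul_bdd (c := 2) (measurable_incr hM k h j).aestronglyMeasurable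
      (ae_of_all _ fun g => norm_incr hM k h g j)
  have id2 : Integrable (fun g => ∑ j, d g j ^ 2) (gp (Fin n)) :=
    integrable_finsetSum _ fun j _ => Integrable.of_bound ((measurable_incr hM k h j).pow_const 2).aestronglyMeasurable (2 ^ 2)
      (ae_of_all _ fun g => by rw [norm_pow]; exact pow_le_pow_left₀ (norm_nonneg _) (norm_incr hM k h g j) 2)
  simp only [← integral_mul_const]
  rw [← integral_finsetSum _ fun j _ => (hi j).mul_const _]
  refine (integral_mono (integrable_finsetSum _ fun j _ => (hi j).mul_const _)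
    ((ie.const_mul (1 / (2 * t))).add (id2.const_mul (t / 2))) fun g => ?_).trans ?_
  · simp only [Pi.add_apply]
    have h1 : ∑ j, e g * d g j * w j = e g * ∑ j, d g j * w j := by
      rw [mul_sum]; exact sum_congr rfl fun j _ => by ring
    have h2 : (∑ j, d g j * w j) ^ 2 ≤ ∑ j, d g j ^ 2 :=
      (sum_mul_sq_le_sq_mul_sq _ _ _).trans (mul_le_of_le_one_right (sum_nonneg fun j _ => sq_nonneg _) hw)
    rw [h1]
    have h3 := mul_le_mul_of_nonneg_left h2 (show 0 ≤ t / 2 by positivity)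
    have h4 : 1 / (2 * t) * e g ^ 2 + t / 2 * (∑ j, d g j * w j) ^ 2 - e g * ∑ j, d g j * w j
        = (e g - t * ∑ j, d g j * w j) ^ 2 / (2 * t) := by field_simp; ring
    have h5 : 0 ≤ (e g - t * ∑ j, d g j * w j) ^ 2 / (2 * t) := by positivity
    linarith
  · rw [integral_add' (ie.const_mul _) (id2.const_mul _), integral_const_mul, integral_const_mul]
    refine (add_le_add (mul_le_mul_of_nonneg_left herr (by positivity))
      (mul_le_mul_of_nonneg_left hs (by positivity))).trans (le_of_eq ?_)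
    field_simp

/-- One good step. -/
theorem dist1_step (hM : Mesh Bs t L ρ P R M G K) {f : Conf n → ℝ} (hf : ∀ x, 0 < f x) {k : ℕ}
    (hk : k < K) {h : Vec n} (hh : h ∈ G (k + 1)) :
    Integrable (fun g => dist1 Bs t M f k (shiftH (Bs k) t h g)) (gp (Fin n)) ∧
    (1 - L * t ^ 2) * dist1 Bs t M f (k + 1) h ≤ ∫ g, dist1 Bs t M f k (shiftH (Bs k) t h g) ∂gp (Fin n)
      + stepErr t ρ P R * ∑ x, nodeW Bs t (k + 1) h x * f x := by
  obtain ⟨hs1, hs2⟩ := hM.step k hk h hh
  set W1 := nodeW Bs t (k + 1) h with hW1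
  have hW1p : ∀ x, 0 < W1 x := fun x => nodeW_pos _ _ _
  set Fm := ∑ x, W1 x * f x with hFm
  have hFp : 0 < Fm := sum_pos (fun x _ => mul_pos (hW1p x) (hf x)) univ_nonempty
  set V : Vec n → Vec n := fun g j =>
    ∑ x, nodeW Bs t k (shiftH (Bs k) t h g) x * f x * (spin (x j) - M k (shiftH (Bs k) t h g) j) with hV
  have hmV : ∀ j, Measurable fun g => V g j := fun j => by
    refine Finset.measurable_sum _ fun x _ => ?_
    have h1 : Measurable fun g => nodeW Bs t k (shiftH (Bs k) t h g) x := by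
      simp only [nodeW_tilt]; exact ((continuous_tiltG _).measurable.const_mul _)
    exact (h1.mul_const _).mul (((measurable_pi_apply j).comp
      ((hM.meas k).comp (measurable_shift (Bs k) t h))).const_sub _)
  have iV : ∀ j, Integrable (fun g => V g j) (gp (Fin n)) := fun j =>
    integrable_finsetSum _ fun x _ => ((integrable_nodeW k h x).mul_const _).mul_bdd (c := 2)
      (((measurable_pi_apply j).comp ((hM.meas k).comp (measurable_shift (Bs k) t h))).const_sub _).aestronglyMeasurable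
      (ae_of_all _ fun g => by rw [Real.norm_eq_abs]; exact abs_spin_sub _ (hM.bdd _ _ _))
  have iD : Integrable (fun g => dist1 Bs t M f k (shiftH (Bs k) t h g)) (gp (Fin n)) := by
    refine ((integrable_sum_nodeW (Bs := Bs) (t := t) k h f).const_mul (2 * √n)).mono' ?_ (ae_of_all _ fun g => ?_)
    · exact ((Finset.measurable_sum _ fun j _ => (hmV j).pow_const 2).sqrt).aestronglyMeasurable
    · rw [Real.norm_eq_abs, abs_of_nonneg (show 0 ≤ dist1 Bs t M f k (shiftH (Bs k) t h g) from eno_nonneg _)]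
      exact dist1_le hM (fun x => (hf x).le) k _
  refine ⟨iD, ?_⟩
  set d := fun (g : Vec n) (j : Fin n) => M k (shiftH (Bs k) t h g) j - M (k + 1) h j with hd
  have id : ∀ j x, Integrable (fun g => tiltG (dir (Bs k) t x) g * d g j) (gp (Fin n)) := fun j x =>
    (integrable_tiltG _).mul_bdd (c := 2) (measurable_incr hM k h j).aestronglyMeasurable
      (ae_of_all _ fun g => norm_incr hM k h g j)
  -- the exact identity of the step
  have hid : ∀ j, ∑ x, W1 x * f x * (spin (x j) - M (k + 1) h j)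
      = (∫ g, V g j ∂gp (Fin n)) + ∑ x, W1 x * f x * ∫ g, tiltG (dir (Bs k) t x) g * d g j ∂gp (Fin n) := by
    intro j
    have e : ∀ g, V g j = ∑ x, nodeW Bs t k (shiftH (Bs k) t h g) x * (f x * (spin (x j) - M (k + 1) h j))
        - ∑ x, W1 x * f x * (tiltG (dir (Bs k) t x) g * d g j) := fun g => by
      rw [← sum_sub_distrib]
      refine sum_congr rfl fun x _ => ?_
      simp only [hd, hW1, nodeW_tilt]; ring
    simp only [e]
    rw [integral_sub (integrable_sum_nodeW k h _) (integrable_finsetSum _ fun x _ => (id j x).const_mul _),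
      integral_finsetSum _ (fun x _ => (id j x).const_mul _), integral_sum_nodeW]
    simp only [integral_const_mul, hW1, mul_assoc]
    ring
  set y : Vec n := fun j => (∑ x, W1 x * f x * spin (x j)) / Fm with hy
  have hy1 : ∀ j, |y j| ≤ 1 := fun j => by
    rw [hy, abs_div, abs_of_pos hFp, div_le_one hFp]
    refine (abs_sum_le_sum_abs _ _).trans (sum_le_sum fun x _ => ?_)
    rw [abs_mul, abs_of_pos (mul_pos (hW1p x) (hf x))]
    exact mul_le_of_le_one_right (mul_pos (hW1p x) (hf x)).le (by cases x j <;> simp [spin])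
  have hD1 : dist1 Bs t M f (k + 1) h = Fm * eno (fun j => y j - M (k + 1) h j) := by
    rw [show Fm * eno (fun j => y j - M (k + 1) h j) = eno (fun j => Fm * (y j - M (k + 1) h j)) by
      rw [eno_smul, abs_of_pos hFp], dist1]
    congr 1; funext j
    rw [mul_sub, hy, mul_div_cancel₀ _ hFp.ne', hFm, sum_mul, ← sum_sub_distrib]
    exact sum_congr rfl fun x _ => by rw [← hW1]; ring
  set lin1 : Vec n := fun j => ∫ g, (1 + t * ∑ u, g u * bvec (Bs k) y u) * d g j ∂gp (Fin n) with hlin
  set err : Conf n → Vec n := fun x j =>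
    ∫ g, (tiltG (dir (Bs k) t x) g - 1 - Vale.Agent.P150.lin (dir (Bs k) t x) g) * d g j ∂gp (Fin n) with herr
  have hsplit : ∀ j, ∑ x, W1 x * f x * ∫ g, tiltG (dir (Bs k) t x) g * d g j ∂gp (Fin n)
      = Fm * lin1 j + ∑ x, W1 x * f x * err x j := by
    intro j
    have il : ∀ x, Integrable (fun g => (1 + Vale.Agent.P150.lin (dir (Bs k) t x) g) * d g j) (gp (Fin n)) :=
      fun x => ((integrable_const _).add (integrable_lin _)).mul_bdd (c := 2)
        (measurable_incr hM k h j).aestronglyMeasurable (ae_of_all _ fun g => norm_incr hM k h g j)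
    have e1 : ∀ x, ∫ g, tiltG (dir (Bs k) t x) g * d g j ∂gp (Fin n)
        = (∫ g, (1 + Vale.Agent.P150.lin (dir (Bs k) t x) g) * d g j ∂gp (Fin n)) + err x j := fun x => by
      simp only [herr]
      rw [← integral_add (il x) (((id j x).sub (il x)).congr (ae_of_all _ fun g => by
        simp only [Pi.sub_apply]; ring))]
      exact integral_congr_ae (ae_of_all _ fun g => by ring)
    simp only [e1, mul_add, sum_add_distrib]
    congr 1
    simp only [← integral_const_mul, hlin]
    rw [← integral_finsetSum _ fun x _ => (il x).const_mul _]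
    refine integral_congr_ae (ae_of_all _ fun g => ?_)
    have hby : ∀ u, Fm * bvec (Bs k) y u = ∑ x, W1 x * f x * Ent.lin (Bs k u) x := fun u => by
      simp only [bvec, hy, mul_sum, Ent.lin]
      rw [sum_comm]
      refine sum_congr rfl fun i _ => ?_
      have hne := hFp.ne'
      field_simp
      rw [mul_sum]; exact sum_congr rfl fun x _ => by ring
    have e2 : Fm * (t * ∑ u, g u * bvec (Bs k) y u)
        = ∑ x, W1 x * f x * Vale.Agent.P150.lin (dir (Bs k) t x) g := by
      simp only [Vale.Agent.P150.lin, dir, mul_sum]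
      rw [sum_comm]
      refine sum_congr rfl fun u _ => ?_
      rw [show Fm * (t * (g u * bvec (Bs k) y u)) = t * g u * (Fm * bvec (Bs k) y u) by ring, hby, mul_sum]
      exact sum_congr rfl fun x _ => by ring
    simp only [hFm, add_mul, mul_add, one_mul, sum_add_distrib]
    rw [← hFm, ← mul_assoc Fm, e2, sum_mul, sum_mul]
    congr 1
    exact sum_congr rfl fun x _ => by ring
  have h1 : eno (fun j => ∫ g, V g j ∂gp (Fin n)) ≤ ∫ g, dist1 Bs t M f k (shiftH (Bs k) t h g) ∂gp (Fin n) :=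
    eno_integral_le iV iD fun g => le_rfl
  have h2 : eno (fun j => Fm * lin1 j) ≤ Fm * (t ^ 2 * (L * eno (fun j => y j - M (k + 1) h j) + ρ) + P * t ^ 3) := by
    rw [eno_smul, abs_of_pos hFp]
    exact mul_le_mul_of_nonneg_left (hs2 y hy1) hFp.le
  have h3 : eno (fun j => ∑ x, W1 x * f x * err x j) ≤ Fm * (t ^ 3 * ((R ^ 2 + P ^ 2) / 2)) := by
    have ht := hM.tpos
    refine eno_le_of_unit (by positivity) fun w hw => ?_
    simp only [sum_mul]
    rw [sum_comm, hFm, sum_mul]
    refine sum_le_sum fun x _ => ?_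
    simp only [mul_assoc (W1 x * f x), ← mul_sum]
    refine mul_le_mul_of_nonneg_left ?_ (mul_pos (hW1p x) (hf x)).le
    exact ((inner_le_eno _ w).trans (mul_le_of_le_one_right (eno_nonneg _)
      (by rw [eno]; exact sqrt_le_one.2 hw))).trans (tilt_incr hM hs1 x)
  have h4 : dist1 Bs t M f (k + 1) h ≤ eno (fun j => ∫ g, V g j ∂gp (Fin n))
      + (eno (fun j => Fm * lin1 j) + eno (fun j => ∑ x, W1 x * f x * err x j)) := by
    refine le_trans (le_of_eq ?_) ((eno_add_le _ _).trans (add_le_add le_rfl (eno_add_le _ _)))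
    rw [dist1]
    congr 1; funext j
    rw [← hsplit, ← hid, hW1]
  rw [sub_mul, one_mul, stepErr]
  rw [hD1] at h4 ⊢
  linarith

/-- The transport inequality at every level. -/
theorem transport (hM : Mesh Bs t L ρ P R M G K) {f : Conf n → ℝ} (hf : ∀ x, 0 < f x) {l : ℝ}
    (hl : 0 < l) : ∀ k, k ≤ K → ∀ h,
    dist1 Bs t M f k h ≤ exp (2 * L * t ^ 2 * k) * (l * Ent.ent (nodeW Bs t k h) f
      + (∑ x, nodeW Bs t k h x * f x) * (1 / (2 * l) + k * stepErr t ρ P R)
      + 2 * √n * badF Bs t G f k h) := by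
  intro k
  induction k with
  | zero =>
    intro _ h
    refine (dist1_zero hM hf h hl).trans ?_
    have := badF_nonneg (Bs := Bs) (t := t) hM.measG (fun x => (hf x).le) 0 h
    simp only [Nat.cast_zero, mul_zero, exp_zero, one_mul, zero_mul, add_zero]
    rw [mul_one_div]
    have : 0 ≤ 2 * √(n : ℝ) * badF Bs t G f 0 h := by positivity
    linarith
  | succ k ih =>
    intro hk h
    have ht := hM.tpos
    have hLn := hM.Lnn
    have hP := hM.Pnn
    have hρ := hM.ρnn
    have hE : 0 ≤ stepErr t ρ P R := by rw [stepErr]; positivity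
    have hb0 := badF_nonneg (Bs := Bs) (t := t) hM.measG (fun x => (hf x).le) (k + 1) h
    have hW : ∀ x, 0 < nodeW Bs t (k + 1) h x := fun x => nodeW_pos _ _ _
    have hent := Ent.ent_nonneg hW hf
    set Fm := ∑ x, nodeW Bs t (k + 1) h x * f x with hFm
    have hFp : 0 < Fm := sum_pos (fun x _ => mul_pos (hW x) (hf x)) univ_nonempty
    set a := exp (2 * L * t ^ 2 * k) with ha
    have ha1 : 1 ≤ a := one_le_exp (by positivity)
    have hexp : exp (2 * L * t ^ 2 * (k + 1 : ℕ)) = a * exp (2 * L * t ^ 2) := by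
      rw [ha, ← exp_add]; push_cast; ring_nf
    have hgt : 1 ≤ exp (2 * L * t ^ 2) := one_le_exp (by positivity)
    by_cases hh : h ∈ G (k + 1)
    · obtain ⟨iD, hstep⟩ := dist1_step hM hf hk hh
      obtain ⟨iE, eE⟩ := ent_children hf k h
      have ih' := ih (Nat.le_of_succ_le hk)
      have iF := integrable_sum_nodeW (Bs := Bs) (t := t) k h f
      have iB := integrable_badF (Bs := Bs) (t := t) hM.measG f k h
      have hint := integral_mono iD ((((iE.const_mul l).add
        (iF.mul_const (1 / (2 * l) + k * stepErr t ρ P R))).add (iB.const_mul (2 * √n))).const_mul a)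
        fun g => ih' (shiftH (Bs k) t h g)
      simp only [Pi.add_apply] at hint
      have j1 : Integrable (fun g => l * Ent.ent (nodeW Bs t k (shiftH (Bs k) t h g)) f
          + (∑ x, nodeW Bs t k (shiftH (Bs k) t h g) x * f x) * (1 / (2 * l) + k * stepErr t ρ P R))
          (gp (Fin n)) := (iE.const_mul l).add (iF.mul_const _)
      rw [integral_const_mul, integral_add j1 (iB.const_mul _),
        integral_add (iE.const_mul l) (iF.mul_const _),
        integral_const_mul, integral_mul_const, integral_const_mul, integral_sum_nodeW, ← hFm] at hint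
      set S := l * Ent.ent (nodeW Bs t (k + 1) h) f + Fm * (1 / (2 * l) + (k + 1 : ℕ) * stepErr t ρ P R)
        + 2 * √n * badF Bs t G f (k + 1) h with hS
      have hS0 : 0 ≤ S := by positivity
      have h1 : (1 - L * t ^ 2) * dist1 Bs t M f (k + 1) h ≤ a * S := by
        refine hstep.trans ((add_le_add_left hint _).trans ?_)
        rw [← hFm]
        have b1 := mul_le_mul_of_nonneg_left eE hl.le
        have b2 := mul_le_mul_of_nonneg_left (integral_badF_le (Bs := Bs) (t := t) hM.measG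
          (fun x => (hf x).le) k h) (show 0 ≤ 2 * √(n : ℝ) by positivity)
        have b3 := mul_le_mul_of_nonneg_left (add_le_add b1 b2) (zero_le_one.trans ha1)
        have b4 := mul_le_mul_of_nonneg_right ha1 (mul_nonneg hE hFp.le)
        rw [hS]; push_cast
        linarith
      have h2 : 1 ≤ exp (2 * L * t ^ 2) * (1 - L * t ^ 2) := by
        have h3 := mul_le_mul_of_nonneg_right (add_one_le_exp (2 * L * t ^ 2))
          (by linarith [hM.smallL] : 0 ≤ 1 - L * t ^ 2)
        nlinarith [hM.smallL, mul_nonneg hLn (sq_nonneg t)]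
      rw [hexp]
      calc dist1 Bs t M f (k + 1) h = 1 * dist1 Bs t M f (k + 1) h := (one_mul _).symm
        _ ≤ exp (2 * L * t ^ 2) * (1 - L * t ^ 2) * dist1 Bs t M f (k + 1) h :=
            mul_le_mul_of_nonneg_right h2 (eno_nonneg _)
        _ ≤ exp (2 * L * t ^ 2) * (a * S) := by
            rw [mul_assoc]; exact mul_le_mul_of_nonneg_left h1 (exp_pos _).le
        _ = _ := by rw [hS]; ring
    · refine (dist1_le hM (fun x => (hf x).le) _ h).trans ?_
      rw [badF_of_notMem hh, hexp]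
      refine le_trans ?_ (le_mul_of_one_le_left (by positivity) (one_le_mul_of_one_le_of_one_le ha1 hgt))
      rw [← hFm]
      have : 0 ≤ Fm * (1 / (2 * l) + ((k + 1 : ℕ) : ℝ) * stepErr t ρ P R) := by positivity
      have := mul_nonneg hl.le hent
      linarith

end Vale.Agent.P150.Fast.Drift
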